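import Crest.Agent.X326.Net.Run

/-!
Row 326, M1: change of scalars and padding with idle wires for `NetSpec`.
-/

set_option autoImplicit false

namespace Crest.Agent.X326.Net

open Matrix

section MapCoef

variable {W R R' R'' k ι : Type}

/-- change of the coefficients of a program -/
def Instr.mapCoef (f : R → R') : Instr W R k ι → Instr W R' k ι
  | .add w w' c => .add w w' (f c)
  | .atom w e u v => .atom w e u v

theorem Instr.mapCoef_mapCoef (f : R → R') (g : R' → R'') (i : Instr W R k ι) :
    (i.mapCoef f).mapCoef g = i.mapCoef (g ∘ f) := by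
  cases i <;> rfl

theorem natoms_mapCoef (f : R → R') (P : List (Instr W R k ι)) :
    natoms (P.map (Instr.mapCoef f)) = natoms P := by
  induction P with
  | nil => rfl
  | cons i P ih => cases i <;> simp [Instr.mapCoef, ih]

theorem atom_mem_mapCoef {f : R → R'} {P : List (Instr W R k ι)} {w : W} {e : Matrix ι ι k}
    {u v : ι → k} :
    Instr.atom w e u v ∈ P.map (Instr.mapCoef f) ↔ Instr.atom w e u v ∈ P := by
  constructor
  · intro h
    obtain ⟨i, hi, hi'⟩ := List.mem_map.1 h
    cases i with
    | add a b c => cases hi'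
    | atom a e' u' v' =>
      simp only [Instr.mapCoef, Instr.atom.injEq] at hi'
      obtain ⟨rfl, rfl, rfl, rfl⟩ := hi'
      exact hi
  · intro h
    exact List.mem_map.2 ⟨_, h, rfl⟩

variable [DecidableEq W]

theorem valid_mapCoef [CommRing k] (f : R → R') {P : List (Instr W R k ι)}
    {l l' : W → Matrix ι ι k} : Valid l (P.map (Instr.mapCoef f)) l' ↔ Valid l P l' := by
  induction P generalizing l with
  | nil => rfl
  | cons i P ih =>
    cases i with
    | add w w' c => simp only [List.map_cons, Instr.mapCoef, Valid, ih]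
    | atom w e u v => simp only [List.map_cons, Instr.mapCoef, Valid, ih]

theorem logi_mapCoef [CommRing R] [CommRing R'] (φ : R →+* R') (P : List (Instr W R k ι))
    {M : Type} [AddCommGroup M] [Module R' M] (x : W → M) :
    logi (P.map (Instr.mapCoef φ)) x = @logi W R k ι _ _ M _ (Module.compHom M φ) P x := by
  induction P generalizing x with
  | nil => rfl
  | cons i P ih =>
    cases i with
    | add w w' c =>
      simp only [List.map_cons, Instr.mapCoef, logi_cons_add]
      rw [ih]
      rfl
    | atom w e u v =>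
      simp only [List.map_cons, Instr.mapCoef, logi_cons_atom]
      rw [ih]

end MapCoef

variable {R R' k ι : Type} [CommRing R] [CommRing R'] [CommRing k] {sym : Prop}
  {full : Matrix ι ι k} {nW : ℕ} {P : List (Instr (Fin nW) R k ι)} {ρ : Fin nW ≃ Fin nW}
  {lin lout : Fin nW → Matrix ι ι k}

/-- change of scalars along a ring homomorphism -/
theorem NetSpec.mapCoef (h : NetSpec R sym full P ρ lin lout) (φ : R →+* R') :
    NetSpec R' sym full (P.map (Instr.mapCoef φ)) ρ lin lout where
  valid := (valid_mapCoef _).2 h.valid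
  label := h.label
  logical M _ _ x w := by
    rw [logi_mapCoef]
    exact @NetSpec.logical R k ι _ _ sym full nW P ρ lin lout h M _ (Module.compHom M φ) x w
  symm hs w e u v hm := h.symm hs w e u v (atom_mem_mapCoef.1 hm)
  symm_in := h.symm_in

/-- forgetting the symmetry -/
theorem NetSpec.forget (h : NetSpec R sym full P ρ lin lout) :
    NetSpec R False full P ρ lin lout :=
  ⟨h.valid, h.label, h.logical, fun h => h.elim, fun h => h.elim⟩

/-- padding with idle wires, each of which goes from the label `0` to the label `full` -/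
theorem NetSpec.pad (h : NetSpec R sym full P ρ lin lout) {m : ℕ} (hfull : Dec sym m full)
    {nW' : ℕ} (hle : nW ≤ nW') :
    ∃ (P' : List (Instr (Fin nW') R k ι)) (ρ' : Fin nW' ≃ Fin nW')
      (lin' lout' : Fin nW' → Matrix ι ι k), NetSpec R sym full P' ρ' lin' lout' ∧
      natoms P' = natoms P + (nW' - nW) * m := by
  classical
  let f : Fin nW ↪ Fin nW' := Fin.castLEEmb hle
  have hf : ∀ w : Fin nW', (∀ a, f a ≠ w) ↔ ¬ w.1 < nW := by
    intro w
    constructor
    · intro h1 h2
      exact h1 ⟨w.1, h2⟩ (Fin.ext rfl)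
    · rintro h1 a rfl
      exact h1 a.2
  let ext : (Fin nW → Matrix ι ι k) → Matrix ι ι k → Fin nW' → Matrix ι ι k :=
    fun l d w => if hw : w.1 < nW then l ⟨w.1, hw⟩ else d
  have ext1 : ∀ l d a, ext l d (f a) = l a := fun l d a => dif_pos a.2
  have ext2 : ∀ l d w, (∀ a, f a ≠ w) → ext l d w = d := fun l d w hw => dif_neg ((hf w).1 hw)
  have v1 : Valid (ext lin 0) (P.map (Instr.rename f)) (ext lout 0) :=
    valid_rename f.injective h.valid _ _ (ext1 _ _) (ext1 _ _) fun w hw => by
      rw [ext2 _ _ _ hw, ext2 _ _ _ hw]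
  obtain ⟨P2, v2, n2, s2, l2⟩ := Run.relabel (R := R) (sym := sym) (l := ext lout 0)
    (l' := ext lout full) (fun w => if w.1 < nW then 0 else m) (by
      intro w
      by_cases hw : w.1 < nW
      · rw [if_pos hw]
        exact Dec.of_eq (by simp only [ext, dif_pos hw])
      · rw [if_neg hw]
        simp only [ext, dif_neg hw, sub_zero]
        exact hfull)
  have hsin : sym → ∀ w, (ext lin 0 w).IsSymm := by
    intro hs w
    by_cases hw : w.1 < nW
    · simp only [ext, dif_pos hw]
      exact h.symm_in hs _
    · simp only [ext, dif_neg hw]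
      exact Matrix.isSymm_zero
  have hsuv : sym → ∀ w e u v, Instr.atom w e u v ∈ P.map (Instr.rename f) ++ P2 → u = v := by
    intro hs w e u v hm
    rcases List.mem_append.1 hm with hm | hm
    · obtain ⟨a, ha⟩ := mem_rename hm
      exact (h.symm hs a e u v ha).1
    · exact s2 hs w e u v hm
  refine ⟨P.map (Instr.rename f) ++ P2, Equiv.Perm.viaFintypeEmbedding ρ f, ext lin 0,
    ext lout full, ⟨v1.append v2, fun w => ?_, fun M _ _ x w => ?_, fun hs w e u v hm => ?_,
      hsin⟩, ?_⟩
  · by_cases hw : ∃ a, f a = w
    · obtain ⟨a, rfl⟩ := hw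
      rw [Equiv.Perm.viaFintypeEmbedding_apply_image, ext1, ext1, h.label]
    · rw [Equiv.Perm.viaFintypeEmbedding_apply_notMem_range _ _ hw]
      push Not at hw
      rw [ext2 _ _ _ hw, ext2 _ _ _ hw, zero_add]
  · have hid : ∀ (y : Fin nW' → M) (z : Fin nW'), logi P2 y z = y z := by
      intro y z
      rw [logi_eq_sum]
      simp only [l2]
      simp [Pi.single_apply]
    rw [logi_append, hid]
    obtain ⟨g1, g2⟩ := logi_rename f.injective P x
    by_cases hw : ∃ a, f a = w
    · obtain ⟨a, rfl⟩ := hw
      rw [Equiv.Perm.viaFintypeEmbedding_apply_image, g1, h.logical]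
    · rw [Equiv.Perm.viaFintypeEmbedding_apply_notMem_range _ _ hw]
      push Not at hw
      exact g2 w hw
  · exact ⟨hsuv hs w e u v hm, (v1.append v2).isSymm (hsin hs) (hsuv hs) w e u v hm⟩
  · rw [natoms_append, natoms_rename, n2]
    congr 1
    rw [Finset.sum_ite, Finset.sum_const_zero, zero_add, Finset.sum_const, smul_eq_mul]
    congr 1
    have h1 := Finset.card_filter_add_card_filter_not (s := (Finset.univ : Finset (Fin nW')))
      (fun w => w.1 < nW)
    rw [Finset.card_univ, Fintype.card_fin, Fin.card_filter_val_lt, min_eq_right hle] at h1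
    omega

end Crest.Agent.X326.Net
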