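import Crest.Agent.X326.Net.BaseB
import Crest.Agent.X326.Net.Pad

/-!
Row 326, M1: the two concrete networks (ground set of 64 points, `m = 2^18` label coordinates,
`W = 2^63` wires), derived from `MainStatement`.
-/

set_option autoImplicit false

namespace Crest.Agent.X326.Net

open Matrix

theorem K3_smul_one {k η ι : Type} [CommRing k] [DecidableEq η] [DecidableEq ι]
    (e : ι → η × η × η) (he : Function.Injective e) (c : k) :
    K3 e (c • (1 : Matrix η η k)) (c • (1 : Matrix η η k)) (c • (1 : Matrix η η k)) =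
      c ^ 3 • (1 : Matrix ι ι k) := by
  ext i j
  simp only [K3, Matrix.of_apply, Matrix.smul_apply, Matrix.one_apply, smul_eq_mul]
  by_cases h : i = j
  · subst h
    simp only [if_true]
    ring
  · rw [if_neg h, mul_zero]
    by_cases h1 : (e i).1 = (e j).1
    · by_cases h2 : (e i).2.1 = (e j).2.1
      · have h3 : (e i).2.2 ≠ (e j).2.2 := fun h3 =>
          h (he (Prod.ext h1 (Prod.ext h2 h3)))
        rw [if_neg h3, mul_zero, mul_zero]
      · rw [if_neg h2, mul_zero, mul_zero, zero_mul]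
    · rw [if_neg h1, mul_zero, zero_mul, zero_mul]

theorem card_tri_64 : Fintype.card (Tri (Fin 64)) = 41664 := by
  rw [Fintype.card_finset_len, Fintype.card_fin]
  norm_num [Nat.choose]

/-- the saving in real form: `s ≤ W m ^ (1 - 2^-40)` -/
theorem count_le_rpow {s W m : ℕ} (hm : m = 2 ^ 18)
    (h : s * 2 ^ 40 + 13 * (W * m) ≤ W * m * 2 ^ 40) :
    (s : ℝ) ≤ W * (m : ℝ) ^ (1 - 1 / (2 : ℝ) ^ 40) := by
  have hm0 : (0 : ℝ) < m := by rw [hm]; positivity
  have hlog : Real.log m ≤ 13 := by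
    rw [hm, Nat.cast_pow, Real.log_pow]
    have := Real.log_two_lt_d9
    push_cast
    linarith
  have h1 : 1 - 13 / (2 : ℝ) ^ 40 ≤ (m : ℝ) ^ (-(1 / (2 : ℝ) ^ 40)) := by
    rw [Real.rpow_def_of_pos hm0]
    have h2 := Real.add_one_le_exp (Real.log m * -(1 / (2 : ℝ) ^ 40))
    have h3 : Real.log m * (1 / (2 : ℝ) ^ 40) ≤ 13 * (1 / (2 : ℝ) ^ 40) :=
      mul_le_mul_of_nonneg_right hlog (by positivity)
    have h4 : (13 : ℝ) / 2 ^ 40 = 13 * (1 / (2 : ℝ) ^ 40) := by ring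
    linarith
  have h5 : (s : ℝ) * 2 ^ 40 + 13 * ((W : ℝ) * m) ≤ W * m * 2 ^ 40 := by exact_mod_cast h
  rw [sub_eq_add_neg, Real.rpow_add hm0, Real.rpow_one, ← mul_assoc]
  have hWm : (0 : ℝ) ≤ (W : ℝ) * m := by positivity
  calc (s : ℝ) ≤ (W : ℝ) * m * (1 - 13 / (2 : ℝ) ^ 40) := by
        rw [mul_sub, mul_one, le_sub_iff_add_le, ← mul_div_assoc, add_div' _ _ _ (by positivity),
          div_le_iff₀ (by positivity)]
        linarith
    _ ≤ _ := mul_le_mul_of_nonneg_left h1 hWm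

/-- the generic network on 64 points, padded to `2^63` wires -/
theorem net_of_data (hmain : MainStatement) {R k C : Type} [CommRing R] [CommRing k] [Fintype C]
    {sym : Prop} (D : NetData R k (Tri (Fin 64)) C (Fin 64) 62 sym) (c : k)
    (hc : D.eps = c • 1) (c0 : ℕ) (hc0 : c0 ≤ 1) (hC : Fintype.card C + c0 ≤ 65)
    {m : ℕ} (hm : m = 2 ^ 18)
    (h0 : ∀ U : Matrix (Fin m) (Fin m) k, Dec sym 1 U → Dec sym c0 (U + U))
    {W : ℕ} (hW : W = 2 ^ 63) :
    ∃ (P : List (Instr (Fin W) R k (Fin m))) (ρ : Fin W ≃ Fin W)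
      (lin lout : Fin W → Matrix (Fin m) (Fin m) k),
      NetSpec R sym (c ^ 3 • 1) P ρ lin lout ∧
        natoms P * 2 ^ 40 + 13 * (W * m) ≤ W * m * 2 ^ 40 := by
  let e : Fin m ≃ Fin 64 × Fin 64 × Fin 64 := Fintype.equivOfCardEq (by simp [hm])
  obtain ⟨nW, P, ρ, lin, lout, hspec, -, hle, hcount⟩ :=
    hmain R k (Tri (Fin 64)) C (Fin 64) (Fin m) 62 sym D e c0 h0
  have hfull : Dec sym m (K3 e D.eps D.eps D.eps) :=
    (Dec.K3 e D.dec_eps D.dec_eps D.dec_eps).congr (by rw [hm]; norm_num) rfl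
  rw [card_tri_64] at hle hcount
  have hle' : nW ≤ W := by
    rw [hW]
    refine hle.trans ?_
    have : Fintype.card C ≤ 65 := by omega
    calc _ ≤ 2 * 41664 ^ 3 + 3 * 41664 ^ 2 * (41664 ^ 2 + 65) := by gcongr
      _ ≤ 2 ^ 63 := by norm_num
  obtain ⟨P', ρ', lin', lout', hspec', hcount'⟩ := hspec.pad hfull hle'
  rw [hc, K3_smul_one e e.injective] at hspec'
  refine ⟨P', ρ', lin', lout', hspec', ?_⟩
  obtain ⟨r, rfl⟩ := Nat.exists_eq_add_of_le hle'
  rw [Nat.add_sub_cancel_left] at hcount'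
  have hnW : nW = 2 ^ 63 - r := by omega
  have hr : r ≤ 2 ^ 63 := by omega
  generalize Fintype.card C = cC at *
  generalize natoms P = s at *
  generalize natoms P' = s' at *
  subst hm
  norm_num at hcount hcount' hW ⊢
  interval_cases c0 <;> omega

/-- **The bit network**: scalars `ZMod 2`, integer labels, every content gains `216 • 1`. -/
theorem netA_of_main (hmain : MainStatement) :
    ∃ (W m : ℕ), W = 2 ^ 63 ∧ m = 2 ^ 18 ∧
      ∃ (P : List (Instr (Fin W) (ZMod 2) ℤ (Fin m))) (ρ : Fin W ≃ Fin W)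
        (lin lout : Fin W → Matrix (Fin m) (Fin m) ℤ),
        NetSpec (ZMod 2) False ((216 : ℤ) • 1) P ρ lin lout ∧
          natoms P * 2 ^ 40 + 13 * (W * m) ≤ W * m * 2 ^ 40 ∧
          (natoms P : ℝ) ≤ W * (m : ℝ) ^ (1 - 1 / (2 : ℝ) ^ 40) := by
  obtain ⟨W, hW⟩ : ∃ W : ℕ, W = 2 ^ 63 := ⟨_, rfl⟩
  obtain ⟨m, hm⟩ : ∃ m : ℕ, m = 2 ^ 18 := ⟨_, rfl⟩
  obtain ⟨P, ρ, lin, lout, hspec, hcount⟩ := net_of_data hmain
    (dataA (η := Fin 64) (g := 62) (by simp)) (6 : ℤ) rfl 1 le_rfl (by simp) hm (by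
      rintro U ⟨L, hL, -, rfl⟩
      obtain ⟨q, rfl⟩ := List.length_eq_one_iff.1 hL
      refine (Dec.atom (q.1 + q.1) q.2 fun h => h.elim).congr rfl ?_
      simp [add_vecMulVec]) hW
  refine ⟨W, m, hW, hm, P, ρ, lin, lout, ?_, hcount, count_le_rpow hm hcount⟩
  have : (6 : ℤ) ^ 3 = 216 := by norm_num
  rwa [this] at hspec

/-- the value of a symbolic coefficient `(a, j)`: `a * hf ^ j` -/
def coefVal {R : Type} [CommRing R] (hf : R) (q : ℤ × ℕ) : R := (q.1 : R) * hf ^ q.2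

/-- **The butterfly network**: one fixed program with symbolic coefficients, labels over
`ZMod 2`, symmetric atoms, every content gains the label `1`; valid over every commutative ring
with a half `hf`. -/
theorem netB_of_main (hmain : MainStatement) :
    ∃ (W m : ℕ), W = 2 ^ 63 ∧ m = 2 ^ 18 ∧
      ∃ (P : List (Instr (Fin W) (ℤ × ℕ) (ZMod 2) (Fin m))) (ρ : Fin W ≃ Fin W)
        (lin lout : Fin W → Matrix (Fin m) (Fin m) (ZMod 2)),
        (∀ (R : Type) [CommRing R] (hf : R), 2 * hf = 1 →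
          NetSpec R True 1 (P.map (Instr.mapCoef (coefVal hf))) ρ lin lout) ∧
          natoms P * 2 ^ 40 + 13 * (W * m) ≤ W * m * 2 ^ 40 ∧
          (natoms P : ℝ) ≤ W * (m : ℝ) ^ (1 - 1 / (2 : ℝ) ^ 40) := by
  obtain ⟨W, hW⟩ : ∃ W : ℕ, W = 2 ^ 63 := ⟨_, rfl⟩
  obtain ⟨m, hm⟩ : ∃ m : ℕ, m = 2 ^ 18 := ⟨_, rfl⟩
  let R0 : Type := Localization.Away (2 : ℤ)
  have h2 : (2 : R0) * IsLocalization.Away.invSelf (2 : ℤ) = 1 := by
    have := IsLocalization.Away.mul_invSelf (S := R0) (2 : ℤ)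
    simpa using this
  obtain ⟨P, ρ, lin, lout, hspec, hcount⟩ := net_of_data hmain
    (dataB (η := Fin 64) (g := 62) _ h2 (by simp) (by norm_num)) (1 : ZMod 2)
    (by rw [one_smul]; rfl) 0 (by norm_num) (by simp) hm (by
      intro U _
      refine Dec.zero.congr rfl ?_
      ext i j
      exact (CharTwo.add_self_eq_zero _).symm) hW
  rw [one_pow, one_smul] at hspec
  have hsurj : ∀ c : R0, ∃ q : ℤ × ℕ, c * 2 ^ q.2 = (q.1 : R0) := by
    intro c
    obtain ⟨n, a, h⟩ := IsLocalization.Away.surj (S := R0) (2 : ℤ) c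
    exact ⟨(a, n), by simpa using h⟩
  choose sc hsc using hsurj
  refine ⟨W, m, hW, hm, P.map (Instr.mapCoef sc), ρ, lin, lout, fun R _ hf hhf => ?_,
    by rwa [natoms_mapCoef], by rw [natoms_mapCoef]; exact count_le_rpow hm hcount⟩
  have hu : IsUnit ((Int.castRingHom R) 2) := by
    refine IsUnit.of_mul_eq_one hf ?_
    simpa using hhf
  let φ : R0 →+* R := IsLocalization.Away.lift (2 : ℤ) hu
  have hφ : (coefVal hf) ∘ sc = φ := by
    funext c
    have h1 := congrArg φ (hsc c)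
    rw [map_mul, map_pow, map_intCast, map_ofNat] at h1
    simp only [Function.comp, coefVal]
    rw [← h1, mul_assoc, ← mul_pow, hhf, one_pow, mul_one]
  have := hspec.mapCoef φ
  rw [List.map_map]
  convert this using 2
  funext i
  simp only [Function.comp, Instr.mapCoef_mapCoef, hφ]

end Crest.Agent.X326.Net
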