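import Crest.Agent.X326.Net.Main
import Crest.Agent.X326.Net.Final

/-!
Row 326, M1: the two concrete networks, unconditionally.
-/

set_option autoImplicit false

namespace Crest.Agent.X326.Net

/-- **The bit network** (`W = 2^63` wires, `m = 2^18` label coordinates). -/
theorem netA :
    ∃ (W m : ℕ), W = 2 ^ 63 ∧ m = 2 ^ 18 ∧
      ∃ (P : List (Instr (Fin W) (ZMod 2) ℤ (Fin m))) (ρ : Fin W ≃ Fin W)
        (lin lout : Fin W → Matrix (Fin m) (Fin m) ℤ),
        NetSpec (ZMod 2) False ((216 : ℤ) • 1) P ρ lin lout ∧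
          natoms P * 2 ^ 40 + 13 * (W * m) ≤ W * m * 2 ^ 40 ∧
          (natoms P : ℝ) ≤ W * (m : ℝ) ^ (1 - 1 / (2 : ℝ) ^ 40) :=
  netA_of_main exists_network

/-- **The butterfly network** (`W = 2^63` wires, `m = 2^18` label coordinates). -/
theorem netB :
    ∃ (W m : ℕ), W = 2 ^ 63 ∧ m = 2 ^ 18 ∧
      ∃ (P : List (Instr (Fin W) (ℤ × ℕ) (ZMod 2) (Fin m))) (ρ : Fin W ≃ Fin W)
        (lin lout : Fin W → Matrix (Fin m) (Fin m) (ZMod 2)),
        (∀ (R : Type) [CommRing R] (hf : R), 2 * hf = 1 →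
          NetSpec R True 1 (P.map (Instr.mapCoef (coefVal hf))) ρ lin lout) ∧
          natoms P * 2 ^ 40 + 13 * (W * m) ≤ W * m * 2 ^ 40 ∧
          (natoms P : ℝ) ≤ W * (m : ℝ) ^ (1 - 1 / (2 : ℝ) ^ 40) :=
  netB_of_main exists_network

end Crest.Agent.X326.Net
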