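import Crest.Agent.X326.Net.Sched

/-!
Row 326, M1: the three stages and the main theorem `exists_network : MainStatement`.
-/

set_option autoImplicit false
set_option synthInstance.maxSize 2048

namespace Crest.Agent.X326.Net

open Matrix

variable {R k T C η ι : Type} [CommRing R] [CommRing k] [Fintype C] [DecidableEq T]
  {g : ℕ} {sym : Prop} (D : NetData R k T C η g sym)

/-- scratch wires of one stage -/
abbrev Scr : Type := (T × T) × (Nbr D ⊕ C)

/-- all wires -/
abbrev WW : Type := (T × T × T) ⊕ (T × T × T) ⊕ (Scr D ⊕ Scr D ⊕ Scr D)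

/-- a function on all wires from its five parts -/
def gst {α : Type} (x y : T × T × T → α) (s1 s2 s3 : Scr D → α) : WW D → α :=
  Sum.elim x (Sum.elim y (Sum.elim s1 (Sum.elim s2 s3)))

/-- X wire -/
abbrev gX (a : T × T × T) : WW D := Sum.inl a
/-- Y wire -/
abbrev gY (a : T × T × T) : WW D := Sum.inr (Sum.inl a)
/-- scratch of stage 1 -/
abbrev g1 (s : Scr D) : WW D := Sum.inr (Sum.inr (Sum.inl s))
/-- scratch of stage 2 -/
abbrev g2 (s : Scr D) : WW D := Sum.inr (Sum.inr (Sum.inr (Sum.inl s)))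
/-- scratch of stage 3 -/
abbrev g3 (s : Scr D) : WW D := Sum.inr (Sum.inr (Sum.inr (Sum.inr s)))

section
variable {α : Type} (x y : T × T × T → α) (s1 s2 s3 : Scr D → α)
@[simp] theorem gst_X (a : T × T × T) : gst D x y s1 s2 s3 (gX D a) = x a := rfl
@[simp] theorem gst_Y (a : T × T × T) : gst D x y s1 s2 s3 (gY D a) = y a := rfl
@[simp] theorem gst_1 (s : Scr D) : gst D x y s1 s2 s3 (g1 D s) = s1 s := rfl
@[simp] theorem gst_2 (s : Scr D) : gst D x y s1 s2 s3 (g2 D s) = s2 s := rfl
@[simp] theorem gst_3 (s : Scr D) : gst D x y s1 s2 s3 (g3 D s) = s3 s := rfl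
end

/-- wires of the invocation `b` of stage 1 -/
def f1 (b : T × T) : W0 D → WW D :=
  Sum.elim (fun t => gX D (t, b.1, b.2))
    (Sum.elim (fun t => gY D (t, b.1, b.2)) fun s => g1 D (b, s))

/-- wires of the invocation `b` of stage 2 -/
def f2 (b : T × T) : W0 D → WW D :=
  Sum.elim (fun t => gX D (b.1, t, b.2))
    (Sum.elim (fun t => gY D (b.1, t, b.2)) fun s => g2 D (b, s))

/-- wires of the invocation `b` of stage 3 -/
def f3 (b : T × T) : W0 D → WW D :=
  Sum.elim (fun t => gX D (b.1, b.2, t))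
    (Sum.elim (fun t => gY D (b.1, b.2, t)) fun s => g3 D (b, s))

theorem f1_inj (i : T × T) (a : W0 D) (j : T × T) (b : W0 D) (h : f1 D i a = f1 D j b) :
    i = j ∧ a = b := by
  obtain ⟨i1, i2⟩ := i
  obtain ⟨j1, j2⟩ := j
  rcases a with a | a | a <;> rcases b with b | b | b <;> simp_all [f1]

theorem f2_inj (i : T × T) (a : W0 D) (j : T × T) (b : W0 D) (h : f2 D i a = f2 D j b) :
    i = j ∧ a = b := by
  obtain ⟨i1, i2⟩ := i
  obtain ⟨j1, j2⟩ := j
  rcases a with a | a | a <;> rcases b with b | b | b <;> simp_all [f2]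

theorem f3_inj (i : T × T) (a : W0 D) (j : T × T) (b : W0 D) (h : f3 D i a = f3 D j b) :
    i = j ∧ a = b := by
  obtain ⟨i1, i2⟩ := i
  obtain ⟨j1, j2⟩ := j
  rcases a with a | a | a <;> rcases b with b | b | b <;> simp_all [f3]

variable (e : ι → η × η × η)

/-- the full label -/
abbrev fullL : Matrix ι ι k := K3 e D.eps D.eps D.eps

/-- the line label of `a` -/
abbrev lineL (a : T × T × T) : Matrix ι ι k := K3 e (D.p a.1) (D.p a.2.1) (D.p a.2.2)

/-- input labels -/
def LI : WW D → Matrix ι ι k :=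
  gst D (fun a => -lineL D e a) (fun _ => 0) (fun _ => 0) (fun _ => 0) (fun _ => 0)

/-- labels before stage 1 -/
def L0 : WW D → Matrix ι ι k :=
  gst D (fun a => lineL D e a) (fun _ => 0) (fun _ => 0) (fun _ => 0) (fun _ => 0)

/-- labels after stage 1 -/
def L1 : WW D → Matrix ι ι k :=
  gst D (fun a => K3 e D.eps (D.p a.2.1) (D.p a.2.2))
    (fun a => K3 e (D.eps - D.p a.1) (D.p a.2.1) (D.p a.2.2))
    (fun _ => fullL D e) (fun _ => 0) (fun _ => 0)

/-- labels after stage 2 -/
def L2 : WW D → Matrix ι ι k :=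
  gst D (fun a => K3 e D.eps D.eps (D.p a.2.2))
    (fun a => K3 e (D.eps - D.p a.1) D.eps (D.p a.2.2) +
      K3 e (D.p a.1) (D.eps - D.p a.2.1) (D.p a.2.2))
    (fun _ => fullL D e) (fun _ => fullL D e) (fun _ => 0)

/-- labels after stage 3 -/
def L3 : WW D → Matrix ι ι k :=
  gst D (fun _ => fullL D e) (fun a => fullL D e - lineL D e a)
    (fun _ => fullL D e) (fun _ => fullL D e) (fun _ => fullL D e)

/-- `y += x` on the whole banks -/
def addXY (x : WW D → R) : WW D → R :=
  gst D (fun a => x (gX D a)) (fun a => x (gY D a) + x (gX D a)) (fun s => x (g1 D s))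
    (fun s => x (g2 D s)) (fun s => x (g3 D s))

/-- `x -= y` on the whole banks -/
def subYX (x : WW D → R) : WW D → R :=
  gst D (fun a => x (gX D a) - x (gY D a)) (fun a => x (gY D a)) (fun s => x (g1 D s))
    (fun s => x (g2 D s)) (fun s => x (g3 D s))

/-- `x := -x` on the X bank -/
def negX (x : WW D → R) : WW D → R :=
  gst D (fun a => -x (gX D a)) (fun a => x (gY D a)) (fun s => x (g1 D s))
    (fun s => x (g2 D s)) (fun s => x (g3 D s))

variable [Fintype T] [DecidableEq C]

theorem stage0 (c0 : ℕ) (hc0 : ∀ U : Matrix ι ι k, Dec sym 1 U → Dec sym c0 (U + U)) :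
    Run (R := R) sym (LI D e) (L0 D e) (c0 * Fintype.card T ^ 3) (fun x => x) := by
  refine (Run.relabel
    (gst D (fun _ => c0) (fun _ => 0) (fun _ => 0) (fun _ => 0) (fun _ => 0)) ?_).congr ?_
    fun _ => rfl
  · rintro (a | a | s | s | s)
    · refine (hc0 (lineL D e a) ?_).congr rfl (by simp [LI, L0])
      exact (D.dec_p _).K3 e (D.dec_p _) (D.dec_p _)
    all_goals exact Dec.of_eq rfl
  · simp only [Fintype.sum_sum_type, gst, Sum.elim_inl, Sum.elim_inr, Finset.sum_const,
      Finset.card_univ, smul_eq_mul, Fintype.card_prod]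
    ring

theorem stage1 : Run sym (L0 D e) (L1 D e)
    (Fintype.card T ^ 2 * invCost D 0 ((g + 2) * (g + 1) * (g + 2) + (g + 2) * 1 * (g + 1)))
    (addXY D) := by
  refine (Run.par (f := f1 D) (f1_inj D)
    (fun b => invoc_fwd D 0 (K3l e (D.p b.1) (D.p b.2)) (fullL D e) (nB := 0)
      (nF := (g + 2) * (g + 1) * (g + 2) + (g + 2) * 1 * (g + 1)) ?_ ?_ ?_)
    ?_ ?_ ?_ ?_ ?_).congr (by simp [sq]) fun _ => rfl
  · intro r U _
    simpa using Dec.zero
  · intro r U hU
    exact (hU.K3 e (D.dec_p _) (D.dec_p _)).congr (by ring) rfl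
  · refine ((D.dec_eps.K3 e (D.dec_one b.1) D.dec_eps).add
      (D.dec_eps.K3 e (D.dec_p b.1) (D.dec_one b.2))).congr rfl ?_
    ext i j
    simp [K3]
    ring
  · rintro b (t | t | q | i) <;> simp [L0, f1, labIn, st]
  · rintro b (t | t | q | i) <;> simp [L1, f1, labOut, st]
  · rintro (a | a | s | s | s) hw
    · exact absurd rfl (hw a.2 (wX D a.1))
    · exact absurd rfl (hw a.2 (wY D a.1))
    · exact absurd rfl (hw s.1 (Sum.inr (Sum.inr s.2)))
    · rfl
    · rfl
  · rintro x b (t | t | q | i) <;> rfl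
  · rintro x (a | a | s | s | s) hw
    · rfl
    · exact absurd rfl (hw a.2 (wY D a.1))
    all_goals rfl

theorem stage2 : Run sym (L1 D e) (L2 D e)
    (Fintype.card T ^ 2 * invCost D (g + 1) ((g + 2) * (g + 2) * (g + 1))) (subYX D) := by
  refine (Run.par (f := f2 D) (f2_inj D)
    (fun b => invoc_rev D (K3m e (D.eps - D.p b.1) (D.p b.2)) (K3m e (D.p b.1) (D.p b.2))
      (fullL D e) (nB := g + 1) (nF := (g + 2) * (g + 2) * (g + 1)) ?_ ?_ ?_)
    ?_ ?_ ?_ ?_ ?_).congr (by simp [sq]) fun _ => rfl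
  · intro r U hU
    exact ((D.dec_one _).K3 e hU (D.dec_p _)).congr (by ring) rfl
  · intro r U hU
    exact ((D.dec_p _).K3 e hU (D.dec_p _)).congr (by ring) rfl
  · refine (D.dec_eps.K3 e D.dec_eps (D.dec_one b.2)).congr rfl ?_
    ext i j
    simp [K3]
    ring
  · rintro b (t | t | q | i)
    · ext i j
      simp [L1, f2, labIn, st, K3]
      ring
    all_goals simp [L1, f2, labIn, st]
  · rintro b (t | t | q | i)
    · ext i j
      simp [L2, f2, labOut, st, K3]
      ring
    all_goals simp [L2, f2, labOut, st]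
  · rintro (a | a | s | s | s) hw
    · exact absurd rfl (hw (a.1, a.2.2) (wX D a.2.1))
    · exact absurd rfl (hw (a.1, a.2.2) (wY D a.2.1))
    · rfl
    · exact absurd rfl (hw s.1 (Sum.inr (Sum.inr s.2)))
    · rfl
  · rintro x b (t | t | q | i) <;> rfl
  · rintro x (a | a | s | s | s) hw
    · exact absurd rfl (hw (a.1, a.2.2) (wX D a.2.1))
    all_goals rfl

theorem stage3 : Run sym (L2 D e) (L3 D e)
    (Fintype.card T ^ 2 * invCost D ((g + 1) * (g + 2) + (g + 1)) 0) (addXY D) := by
  refine (Run.par (f := f3 D) (f3_inj D)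
    (fun b => invoc_fwd D
      (K3r e (D.eps - D.p b.1) D.eps + K3r e (D.p b.1) (D.eps - D.p b.2))
      (K3r e (D.p b.1) (D.p b.2))
      (fullL D e) (nB := (g + 1) * (g + 2) + (g + 1)) (nF := 0) ?_ ?_ ?_)
    ?_ ?_ ?_ ?_ ?_).congr (by simp [sq]) fun _ => rfl
  · intro r U hU
    exact (((D.dec_one _).K3 e D.dec_eps hU).add
      ((D.dec_p _).K3 e (D.dec_one _) hU)).congr (by ring) rfl
  · intro r U hU
    exact ((D.dec_p _).K3 e (D.dec_p _) hU).congr (by ring) rfl
  · refine Dec.of_eq ?_
    ext i j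
    simp [K3]
    ring
  · rintro b (t | t | q | i)
    · ext i j
      simp [L2, f3, labIn, st, K3]
      ring
    all_goals simp [L2, f3, labIn, st]
  · rintro b (t | t | q | i)
    · ext i j
      simp [L3, f3, labOut, st, K3]
      ring
    · ext i j
      simp [L3, f3, labOut, st, K3]
      ring
    all_goals simp [L3, f3, labOut, st]
  · rintro (a | a | s | s | s) hw
    · exact absurd rfl (hw (a.1, a.2.1) (wX D a.2.2))
    · exact absurd rfl (hw (a.1, a.2.1) (wY D a.2.2))
    · rfl
    · rfl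
    · exact absurd rfl (hw s.1 (Sum.inr (Sum.inr s.2)))
  · rintro x b (t | t | q | i) <;> rfl
  · rintro x (a | a | s | s | s) hw
    · rfl
    · exact absurd rfl (hw (a.1, a.2.1) (wY D a.2.2))
    all_goals rfl

theorem stage4 : Run sym (L3 D e) (L3 D e) 0 (negX D) := by
  refine (Run.par (W₀ := Unit) (f := fun a _ => gX D a) (l₀ := fun _ _ => fullL D e)
    (l₀' := fun _ _ => fullL D e) (n := fun _ => 0) (F₀ := fun _ x _ => -x ())
    (fun i _ j _ h => ⟨by simpa using h, rfl⟩) (fun a => ?_) (fun _ _ => rfl) (fun _ _ => rfl)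
    (fun _ _ => rfl) (fun _ _ _ => rfl) ?_).congr (by simp) fun _ => rfl
  · refine (Run.add (w := ()) (w' := ()) rfl (-2)).congr rfl fun x => ?_
    funext u
    simp
    ring
  · rintro x (a | a | s | s | s) hw
    · exact absurd rfl (hw a ())
    all_goals rfl

/-- exchange of the two banks -/
def swapW : WW D ≃ WW D where
  toFun := gst D (gY D) (gX D) (g1 D) (g2 D) (g3 D)
  invFun := gst D (gY D) (gX D) (g1 D) (g2 D) (g3 D)
  left_inv := by rintro (a | a | s | s | s) <;> rfl
  right_inv := by rintro (a | a | s | s | s) <;> rfl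

omit [DecidableEq C] in
theorem card_WW : Fintype.card (WW D) = 2 * Fintype.card T ^ 3 +
    3 * Fintype.card T ^ 2 * (Fintype.card (Nbr D) + Fintype.card C) := by
  simp only [Fintype.card_sum, Fintype.card_prod]
  ring

/-- the whole network on the structured wire type -/
theorem whole (c0 : ℕ) (hc0 : ∀ U : Matrix ι ι k, Dec sym 1 U → Dec sym c0 (U + U)) :
    ∃ n : ℕ, Run sym (LI D e) (L3 D e) n (fun x : WW D → R => fun w => x (swapW D w)) ∧
      n + 2 * Fintype.card T ^ 3 = Fintype.card (WW D) * (g + 2) ^ 3 +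
        6 * Fintype.card T ^ 2 * Fintype.card C * (g + 2) + c0 * Fintype.card T ^ 3 := by
  refine ⟨_, (((((stage0 D e c0 hc0).trans (stage1 D e)).trans (stage2 D e)).trans
    (stage3 D e)).trans (stage4 D e)).congr rfl fun x => ?_, ?_⟩
  · funext w
    rcases w with a | a | s | s | s
    · simp [negX, addXY, subYX, swapW]
    · simp [negX, addXY, subYX, swapW]
    all_goals rfl
  · rw [card_WW]
    unfold invCost
    ring

/-- **M1.** The generic network. -/
theorem exists_network : MainStatement := by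
  intro R k T C η ι _ _ _ _ _ g sym D e c0 hc0
  classical
  obtain ⟨n, hrun, hn⟩ := whole D e c0 hc0
  let φ : WW D ≃ Fin (Fintype.card (WW D)) := Fintype.equivFin _
  have hrun' : Run sym (fun w => LI D e (φ.symm w)) (fun w => L3 D e (φ.symm w)) n
      (fun x : Fin (Fintype.card (WW D)) → R => fun w => x (φ (swapW D (φ.symm w)))) := by
    refine hrun.embed (f := φ) φ.injective (fun a => by simp) (fun a => by simp) ?_
      (fun x a => by simp) ?_
    · intro w hw
      exact absurd (φ.apply_symm_apply w) (hw _)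
    · intro x w hw
      exact absurd (φ.apply_symm_apply w) (hw _)
  obtain ⟨P, hv, hP, hs, hl⟩ := hrun'
  have hin : sym → ∀ w, (LI D e (φ.symm w)).IsSymm := by
    intro hsym w
    generalize φ.symm w = z
    rcases z with a | a | s | s | s
    · exact (((D.dec_p _).K3 e (D.dec_p _) (D.dec_p _)).isSymm hsym).neg
    all_goals exact Matrix.isSymm_zero
  have hinv : ∀ z, swapW D (swapW D z) = z := (swapW D).left_inv
  refine ⟨Fintype.card (WW D), P, (φ.symm.trans (swapW D)).trans φ, _, _,
    ⟨hv, ?_, ?_, ?_, hin⟩, ?_, ?_, by rw [hP]; exact hn⟩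
  · intro w
    simp only [Equiv.trans_apply, Equiv.symm_apply_apply]
    generalize φ.symm w = z
    rcases z with a | a | s | s | s
    · simp only [swapW, Equiv.coe_fn_mk, gst_X, L3, gst_Y, LI]
      abel
    all_goals simp [swapW, L3, LI]
  · intro M _ _ x w
    rw [logi_eq_sum]
    simp [hl, hinv, Pi.single_apply]
  · intro hsym w e' u v hm
    exact ⟨hs hsym w e' u v hm, hv.isSymm (hin hsym) (hs hsym) w e' u v hm⟩
  · rw [card_WW]; omega
  · rw [card_WW]
    have : Fintype.card (Nbr D) ≤ Fintype.card T ^ 2 := by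
      have := Fintype.card_subtype_le (fun q : T × T => D.nb q.1 q.2 = true)
      simpa [sq] using this
    gcongr

end Crest.Agent.X326.Net
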