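import Crest.Agent.X326.Net.Defs

/-!
Row 326, M1: basic lemmas on programs, the frame lemma, closure properties of `Dec`.
-/

set_option autoImplicit false

namespace Crest.Agent.X326.Net

open Matrix

section Prog

variable {W R k ι : Type}

@[simp] theorem natoms_nil : natoms ([] : List (Instr W R k ι)) = 0 := rfl

theorem natoms_append (P Q : List (Instr W R k ι)) : natoms (P ++ Q) = natoms P + natoms Q := by
  simp [natoms]

@[simp] theorem natoms_cons_add (w w' : W) (c : R) (P : List (Instr W R k ι)) :
    natoms (Instr.add w w' c :: P) = natoms P := by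
  simp [natoms, Instr.isAtom]

@[simp] theorem natoms_cons_atom (w : W) (e : Matrix ι ι k) (u v : ι → k)
    (P : List (Instr W R k ι)) : natoms (Instr.atom w e u v :: P) = natoms P + 1 := by
  simp [natoms, List.countP_cons, Instr.isAtom]

variable [DecidableEq W]

theorem Valid.append [CommRing k] {l l' l'' : W → Matrix ι ι k} {P Q : List (Instr W R k ι)}
    (h : Valid l P l') (h' : Valid l' Q l'') : Valid l (P ++ Q) l'' := by
  induction P generalizing l with
  | nil =>
    simp only [Valid] at h
    subst h
    simpa using h'
  | cons i P ih =>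
    cases i with
    | add w w' c =>
      simp only [Valid, List.cons_append] at h ⊢
      exact ⟨h.1, ih h.2⟩
    | atom w e u v =>
      simp only [Valid, List.cons_append] at h ⊢
      exact ⟨h.1, ih h.2⟩

variable [CommRing R] {M : Type} [AddCommGroup M] [Module R M]

@[simp] theorem run_nil (act : Matrix ι ι k → (ι → k) → (ι → k) → M → M) (x : W → M) :
    run act ([] : List (Instr W R k ι)) x = x := rfl

theorem run_cons (act : Matrix ι ι k → (ι → k) → (ι → k) → M → M) (i : Instr W R k ι)
    (P : List (Instr W R k ι)) (x : W → M) :
    run act (i :: P) x = run act P (i.exec act x) := rfl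

theorem run_append (act : Matrix ι ι k → (ι → k) → (ι → k) → M → M)
    (P Q : List (Instr W R k ι)) (x : W → M) :
    run act (P ++ Q) x = run act Q (run act P x) := by
  simp [run, List.foldl_append]

@[simp] theorem logi_nil (x : W → M) : logi ([] : List (Instr W R k ι)) x = x := rfl

theorem logi_append (P Q : List (Instr W R k ι)) (x : W → M) :
    logi (P ++ Q) x = logi Q (logi P x) := run_append _ _ _ _

theorem logi_cons_add (w w' : W) (c : R) (P : List (Instr W R k ι)) (x : W → M) :
    logi (Instr.add w w' c :: P) x = logi P (Function.update x w (x w + c • x w')) := rfl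

theorem logi_cons_atom (w : W) (e : Matrix ι ι k) (u v : ι → k) (P : List (Instr W R k ι))
    (x : W → M) : logi (Instr.atom w e u v :: P) x = logi P x := by
  simp [logi, run_cons, Instr.exec]

/-- **Frame lemma.** If `act e u v` carries the frame `Φ e` to the frame `Φ (e + u vᵀ)` for the
atoms of a valid program, then the physical run is the logical run read in the frames. -/
theorem frame [CommRing k] (Φ : Matrix ι ι k → M →ₗ[R] M)
    (act : Matrix ι ι k → (ι → k) → (ι → k) → M → M) {P : List (Instr W R k ι)}
    {l l' : W → Matrix ι ι k} (hP : Valid l P l')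
    (hact : ∀ w e u v, Instr.atom w e u v ∈ P →
      ∀ y, act e u v (Φ e y) = Φ (e + vecMulVec u v) y) (x : W → M) :
    run act P (fun w => Φ (l w) (x w)) = fun w => Φ (l' w) (logi P x w) := by
  induction P generalizing l x with
  | nil =>
    simp only [Valid] at hP
    subst hP
    rfl
  | cons i P ih =>
    have hact' : ∀ w e u v, Instr.atom w e u v ∈ P →
        ∀ y, act e u v (Φ e y) = Φ (e + vecMulVec u v) y :=
      fun w e u v h => hact w e u v (List.mem_cons_of_mem _ h)
    cases i with
    | add w w' c =>
      simp only [Valid] at hP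
      rw [run_cons, logi_cons_add, ← ih hP.2 hact']
      congr 1
      funext z
      simp only [Instr.exec]
      by_cases hz : z = w
      · subst hz
        simp [hP.1]
      · simp [Function.update_of_ne hz]
    | atom w e u v =>
      simp only [Valid] at hP
      rw [run_cons, logi_cons_atom, ← ih hP.2 hact']
      congr 1
      funext z
      simp only [Instr.exec]
      by_cases hz : z = w
      · subst hz
        simp [hP.1, hact z e u v List.mem_cons_self]
      · simp [Function.update_of_ne hz]

/-- the logical semantics on any module is read off from the one on `R` -/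
theorem logi_eq_sum [Fintype W] (P : List (Instr W R k ι)) :
    ∀ (M : Type) [AddCommGroup M] [Module R M] (x : W → M) (w : W),
      logi P x w = ∑ w', logi P (Pi.single w' (1 : R) : W → R) w • x w' := by
  induction P with
  | nil =>
    intro M _ _ x w
    simp [Pi.single_apply]
  | cons i P ih =>
    intro M _ _ x w
    cases i with
    | atom w0 e u v => simp only [logi_cons_atom]; exact ih M x w
    | add a b c =>
      simp only [logi_cons_add]
      rw [ih M]
      have h1 : ∀ w'' : W, logi P (Function.update (Pi.single w'' (1 : R) : W → R) a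
          ((Pi.single w'' (1 : R) : W → R) a + c • (Pi.single w'' (1 : R) : W → R) b)) w =
          ∑ w', logi P (Pi.single w' (1 : R) : W → R) w *
            Function.update (Pi.single w'' (1 : R) : W → R) a
              ((Pi.single w'' (1 : R) : W → R) a + c • (Pi.single w'' (1 : R) : W → R) b) w' := by
        intro w''
        rw [ih R]
        simp [smul_eq_mul]
      simp only [h1, Finset.sum_smul]
      rw [Finset.sum_comm]
      refine Finset.sum_congr rfl fun w' _ => ?_
      simp only [mul_smul, ← Finset.smul_sum]
      congr 1
      by_cases hz : w' = a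
      · subst hz
        simp [add_smul, Finset.sum_add_distrib, Pi.single_apply]
      · simp [Function.update_of_ne hz, Pi.single_apply]

omit [CommRing R] in
/-- along a valid program with symmetric atoms and symmetric initial labels, all labels met are
symmetric -/
theorem Valid.isSymm [CommRing k] {P : List (Instr W R k ι)} {l l' : W → Matrix ι ι k}
    (hP : Valid l P l') (hl : ∀ w, (l w).IsSymm)
    (hs : ∀ w e u v, Instr.atom w e u v ∈ P → u = v) :
    ∀ w e u v, Instr.atom w e u v ∈ P → e.IsSymm := by
  induction P generalizing l with
  | nil => intro w e u v h; simp at h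
  | cons i P ih =>
    have hs' : ∀ w e u v, Instr.atom w e u v ∈ P → u = v :=
      fun w e u v h => hs w e u v (List.mem_cons_of_mem _ h)
    cases i with
    | add a b c =>
      simp only [Valid] at hP
      intro w e u v h
      rcases List.mem_cons.1 h with h | h
      · cases h
      · exact ih hP.2 hl hs' w e u v h
    | atom a e0 u0 v0 =>
      simp only [Valid] at hP
      intro w e u v h
      rcases List.mem_cons.1 h with h | h
      · cases h
        rw [← hP.1]; exact hl _
      · refine ih hP.2 ?_ hs' w e u v h
        intro z
        by_cases hz : z = a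
        · subst hz
          have huv : u0 = v0 := hs z e0 u0 v0 List.mem_cons_self
          subst huv
          simp only [Function.update_self]
          refine Matrix.IsSymm.add (by rw [← hP.1]; exact hl _) ?_
          ext i j
          simp [vecMulVec_apply, mul_comm]
        · simp [Function.update_of_ne hz, hl]

end Prog

section DecLemmas

variable {k ι η : Type} [CommRing k] {sym : Prop}

theorem Dec.zero : Dec sym 0 (0 : Matrix ι ι k) := ⟨[], rfl, by simp, by simp⟩

theorem Dec.of_eq {A B : Matrix ι ι k} (h : A = B) : Dec sym 0 (A - B) := by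
  rw [h, sub_self]; exact Dec.zero

theorem Dec.atom (u v : ι → k) (h : sym → u = v) : Dec sym 1 (vecMulVec u v) :=
  ⟨[(u, v)], rfl, by simpa using h, by simp⟩

theorem Dec.add {r s : ℕ} {A B : Matrix ι ι k} (hA : Dec sym r A) (hB : Dec sym s B) :
    Dec sym (r + s) (A + B) := by
  obtain ⟨L, hL, hs, rfl⟩ := hA
  obtain ⟨L', hL', hs', rfl⟩ := hB
  refine ⟨L ++ L', by simp [hL, hL'], ?_, by simp⟩
  intro h q hq
  rcases List.mem_append.1 hq with hq | hq
  · exact hs h q hq
  · exact hs' h q hq

theorem Dec.congr {r s : ℕ} {A B : Matrix ι ι k} (hA : Dec sym r A) (hr : r = s) (h : A = B) :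
    Dec sym s B := hr ▸ h ▸ hA

theorem Dec.neg (h2 : sym → (2 : k) = 0) {r : ℕ} {A : Matrix ι ι k} (hA : Dec sym r A) :
    Dec sym r (-A) := by
  by_cases hs : sym
  · have : -A = A := by
      ext i j
      rw [Matrix.neg_apply]
      have := h2 hs
      linear_combination (-(A i j)) * this
    rwa [this]
  · obtain ⟨L, hL, -, rfl⟩ := hA
    refine ⟨L.map fun q => (-q.1, q.2), by simp [hL], fun h => absurd h hs, ?_⟩
    clear hL
    induction L with
    | nil => simp
    | cons q L ih =>
      simp only [List.map_cons, List.sum_cons, neg_add, ih]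
      congr 1
      ext i j
      simp [vecMulVec_apply]

theorem Dec.sum {α : Type} (s : Finset α) (r : α → ℕ) (A : α → Matrix ι ι k)
    (h : ∀ a ∈ s, Dec sym (r a) (A a)) : Dec sym (∑ a ∈ s, r a) (∑ a ∈ s, A a) := by
  classical
  induction s using Finset.induction_on with
  | empty => simpa using Dec.zero
  | insert a s ha ih =>
    rw [Finset.sum_insert ha, Finset.sum_insert ha]
    exact (h a (Finset.mem_insert_self _ _)).add
      (ih fun b hb => h b (Finset.mem_insert_of_mem hb))

/-- a finite sum of atoms -/
theorem Dec.sum_atoms {α : Type} (s : Finset α) (u v : α → ι → k)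
    (h : sym → ∀ a ∈ s, u a = v a) : Dec sym s.card (∑ a ∈ s, vecMulVec (u a) (v a)) := by
  have := Dec.sum (sym := sym) s (fun _ => 1) (fun a => vecMulVec (u a) (v a))
    fun a ha => Dec.atom _ _ fun hs => h hs a ha
  simpa using this

theorem Dec.isSymm {r : ℕ} {A : Matrix ι ι k} (hA : Dec sym r A) (hs : sym) : A.IsSymm := by
  obtain ⟨L, hL, h, rfl⟩ := hA
  replace h := h hs
  clear hL
  induction L with
  | nil => simp
  | cons q L ih =>
    simp only [List.map_cons, List.sum_cons]
    refine Matrix.IsSymm.add ?_ (ih fun q hq => h q (List.mem_cons_of_mem _ hq))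
    rw [h q List.mem_cons_self]
    ext i j
    simp [vecMulVec_apply, mul_comm]

/-- an additive map sending atoms to `Dec n` matrices multiplies the count by `n` -/
theorem Dec.map {ι' : Type} (β : Matrix η η k →+ Matrix ι' ι' k) (n : ℕ)
    (hβ : ∀ u v : η → k, (sym → u = v) → Dec sym n (β (vecMulVec u v)))
    {r : ℕ} {A : Matrix η η k} (hA : Dec sym r A) : Dec sym (n * r) (β A) := by
  obtain ⟨L, rfl, h, rfl⟩ := hA
  induction L with
  | nil => simpa using Dec.zero
  | cons q L ih =>
    simp only [List.map_cons, List.sum_cons, map_add, List.length_cons]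
    refine ((hβ q.1 q.2 fun hs => h hs q List.mem_cons_self).add
      (ih fun hs q hq => h hs q (List.mem_cons_of_mem _ hq))).congr (by ring) rfl

/-- `K3` as an additive map in the first argument -/
def K3l (e : ι → η × η × η) (B C : Matrix η η k) : Matrix η η k →+ Matrix ι ι k :=
  AddMonoidHom.mk' (fun A => K3 e A B C) (by
    intro A A'; ext i j; simp [K3]; ring)

/-- `K3` as an additive map in the second argument -/
def K3m (e : ι → η × η × η) (A C : Matrix η η k) : Matrix η η k →+ Matrix ι ι k :=
  AddMonoidHom.mk' (fun B => K3 e A B C) (by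
    intro B B'; ext i j; simp [K3]; ring)

/-- `K3` as an additive map in the third argument -/
def K3r (e : ι → η × η × η) (A B : Matrix η η k) : Matrix η η k →+ Matrix ι ι k :=
  AddMonoidHom.mk' (fun C => K3 e A B C) (by
    intro C C'; ext i j; simp [K3]; ring)

@[simp] theorem K3l_apply (e : ι → η × η × η) (A B C : Matrix η η k) :
    K3l e B C A = K3 e A B C := rfl

@[simp] theorem K3m_apply (e : ι → η × η × η) (A B C : Matrix η η k) :
    K3m e A C B = K3 e A B C := rfl

@[simp] theorem K3r_apply (e : ι → η × η × η) (A B C : Matrix η η k) :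
    K3r e A B C = K3 e A B C := rfl

theorem Dec.K3 (e : ι → η × η × η) {r s t : ℕ} {A B C : Matrix η η k}
    (hA : Dec sym r A) (hB : Dec sym s B) (hC : Dec sym t C) :
    Dec sym (r * s * t) (K3 e A B C) := by
  have h3 : ∀ (u v u' v' : η → k), (sym → u = v) → (sym → u' = v') →
      Dec sym t (Net.K3 e (vecMulVec u v) (vecMulVec u' v') C) := by
    intro u v u' v' h h'
    have := Dec.map (sym := sym) (K3r e (vecMulVec u v) (vecMulVec u' v')) 1 ?_ hC
    · simpa using this
    · intro u'' v'' h''
      refine (Dec.atom (fun i => u (e i).1 * u' (e i).2.1 * u'' (e i).2.2)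
        (fun i => v (e i).1 * v' (e i).2.1 * v'' (e i).2.2) ?_).congr rfl ?_
      · intro hs
        rw [h hs, h' hs, h'' hs]
      · ext i j
        simp [Net.K3, vecMulVec_apply]
        ring
  have h2 : ∀ (u v : η → k), (sym → u = v) → Dec sym (t * s) (Net.K3 e (vecMulVec u v) B C) := by
    intro u v h
    exact Dec.map (sym := sym) (K3m e (vecMulVec u v) C) t
      (fun u' v' h' => h3 u v u' v' h h') hB
  exact (Dec.map (sym := sym) (K3l e B C) (t * s) h2 hA).congr (by ring) rfl

end DecLemmas

end Crest.Agent.X326.Net
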