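import Crest.Agent.X326.Net.Defs

/-!
Row 326, part M1: the base data of the bit network (scalars `ZMod 2`, integer labels).
The ground set is any finite type `η` with `g + 2` elements, the triples are its `3`-subsets.
-/

set_option autoImplicit false
set_option linter.unusedSectionVars false

namespace Crest.Agent.X326.Net

open Matrix

/-- a sum of rank-one atoms over a finite set -/
theorem dec_finset_sum {k ι α : Type} [CommRing k] {sym : Prop} (s : Finset α)
    (u v : α → ι → k) (h : sym → ∀ a ∈ s, u a = v a) :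
    Dec sym s.card (∑ a ∈ s, vecMulVec (u a) (v a)) := by
  refine ⟨s.toList.map fun a => (u a, v a), by simp, ?_, ?_⟩
  · intro hs q hq
    obtain ⟨a, ha, rfl⟩ := List.mem_map.1 hq
    exact h hs a (Finset.mem_toList.1 ha)
  · rw [List.map_map, ← Finset.sum_map_toList]
    rfl

/-- the `3`-subsets of the ground set -/
abbrev Tri (η : Type) : Type := {S : Finset η // S.card = 3}

/-- indicator vector of a finite set -/
def ind (k : Type) [CommRing k] {η : Type} [DecidableEq η] (S : Finset η) : η → k :=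
  fun i => if i ∈ S then 1 else 0

section

variable {k η : Type} [CommRing k] [Fintype η] [DecidableEq η]

theorem ind_dot_ind (S T : Finset η) : ind k S ⬝ᵥ ind k T = ((S ∩ T).card : k) := by
  unfold dotProduct ind
  have : ∀ i, (if i ∈ S then (1 : k) else 0) * (if i ∈ T then 1 else 0) =
      if i ∈ S ∩ T then 1 else 0 := by
    intro i
    by_cases h1 : i ∈ S <;> by_cases h2 : i ∈ T <;> simp [h1, h2]
  simp only [this]
  rw [Finset.sum_boole]
  congr 2
  ext i
  simp

theorem tri_inter_le (S T : Tri η) : (S.1 ∩ T.1).card ≤ 3 :=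
  (Finset.card_le_card Finset.inter_subset_left).trans S.2.le

theorem tri_inter_eq_three {S T : Tri η} : (S.1 ∩ T.1).card = 3 ↔ S = T := by
  constructor
  · intro h
    have h1 : S.1 ∩ T.1 = S.1 :=
      Finset.eq_of_subset_of_card_le Finset.inter_subset_left (by rw [h, S.2])
    have h2 : S.1 ∩ T.1 = T.1 :=
      Finset.eq_of_subset_of_card_le Finset.inter_subset_right (by rw [h, T.2])
    exact Subtype.ext (h1.symm.trans h2)
  · rintro rfl
    rw [Finset.inter_self, S.2]

/-- a product `M * N` in which the rows of `N` indexed by `Z` vanish -/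
theorem dec_mul (M N : Matrix η η k) (Z : Finset η) (hN : ∀ l ∈ Z, ∀ j, N l j = 0) :
    Dec False Zᶜ.card (M * N) := by
  have h := dec_finset_sum (k := k) (sym := False) Zᶜ (fun l i => M i l) (fun l j => N l j)
    (fun h => h.elim)
  have e : M * N = ∑ l ∈ Zᶜ, vecMulVec (fun i => M i l) (fun j => N l j) := by
    ext i j
    rw [Matrix.mul_apply, Matrix.sum_apply, ← Finset.sum_add_sum_compl Z]
    rw [Finset.sum_eq_zero fun l hl => by rw [hN l hl j, mul_zero], zero_add]
    exact Finset.sum_congr rfl fun l _ => by rw [vecMulVec_apply]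
  rw [e]
  exact h

end

/-! ### the bit network -/

section A

variable {η : Type} [Fintype η] [DecidableEq η]

/-- the covector of a triple: `3 t_S - 1` -/
def covA (S : Finset η) : η → ℤ := fun i => 3 * ind ℤ S i - 1

theorem covA_dot (S T : Finset η) : covA S ⬝ᵥ ind ℤ T = 3 * ((S ∩ T).card : ℤ) - T.card := by
  have h1 : covA S = (3 : ℤ) • ind ℤ S - ind ℤ Finset.univ := by
    ext i
    simp [covA, ind]
  rw [h1, sub_dotProduct, smul_dotProduct, ind_dot_ind, ind_dot_ind, Finset.univ_inter]
  simp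

/-- the label of a triple -/
def pA (S : Tri η) : Matrix η η ℤ := vecMulVec (ind ℤ S.1) (covA S.1)

theorem pA_mulVec (S T : Tri η) :
    pA S *ᵥ ind ℤ T.1 = (3 * ((S.1 ∩ T.1).card : ℤ) - 3) • ind ℤ S.1 := by
  unfold pA
  ext i
  rw [vecMulVec_mulVec, covA_dot, T.2]
  simp [mul_comm]

theorem mul_one_sub_of_mulVec (M : Matrix η η ℤ) (t w : η → ℤ) (h : M *ᵥ t = 0) :
    M * vecMulVec t w = 0 := by
  rw [mul_vecMulVec, h, zero_vecMulVec]

theorem decA_one {g : ℕ} (hη : Fintype.card η = g + 2) (S : Tri η) :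
    Dec False (g + 1) ((6 : ℤ) • (1 : Matrix η η ℤ) - pA S) := by
  obtain ⟨a, ha⟩ : S.1.Nonempty := Finset.card_pos.1 (by rw [S.2]; norm_num)
  set M : Matrix η η ℤ := (6 : ℤ) • (1 : Matrix η η ℤ) - pA S with hM
  have hk : M *ᵥ ind ℤ S.1 = 0 := by
    rw [hM, sub_mulVec, pA_mulVec, Finset.inter_self, S.2, smul_mulVec, one_mulVec]
    norm_num
  have e : M = M * (1 - vecMulVec (ind ℤ S.1) (Pi.single a 1)) := by
    rw [Matrix.mul_sub, Matrix.mul_one, mul_one_sub_of_mulVec _ _ _ hk, sub_zero]
  have h := dec_mul M (1 - vecMulVec (ind ℤ S.1) (Pi.single a 1)) {a} (by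
    intro l hl j
    rw [Finset.mem_singleton] at hl
    subst hl
    simp [vecMulVec_apply, ind, ha, Matrix.one_apply, Pi.single_apply, eq_comm])
  rw [← e, Finset.card_compl, hη, Finset.card_singleton] at h
  exact h

theorem decA_two {g : ℕ} (hη : Fintype.card η = g + 2) (S T : Tri η)
    (hST : (S.1 ∩ T.1).card = 1) :
    Dec False g ((6 : ℤ) • (1 : Matrix η η ℤ) - pA S - pA T) := by
  obtain ⟨a, haS, haT⟩ : ∃ a ∈ S.1, a ∉ T.1 := by
    by_contra hc
    push Not at hc
    rw [Finset.inter_eq_left.2 hc, S.2] at hST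
    omega
  obtain ⟨b, hbT, hbS⟩ : ∃ b ∈ T.1, b ∉ S.1 := by
    by_contra hc
    push Not at hc
    rw [Finset.inter_eq_right.2 hc, T.2] at hST
    omega
  have hab : a ≠ b := fun h => haT (h ▸ hbT)
  set M : Matrix η η ℤ := (6 : ℤ) • (1 : Matrix η η ℤ) - pA S - pA T with hM
  have hkS : M *ᵥ ind ℤ S.1 = 0 := by
    rw [hM, sub_mulVec, sub_mulVec, pA_mulVec, pA_mulVec, Finset.inter_self, S.2,
      Finset.inter_comm, hST, smul_mulVec, one_mulVec]
    norm_num
  have hkT : M *ᵥ ind ℤ T.1 = 0 := by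
    rw [hM, sub_mulVec, sub_mulVec, pA_mulVec, pA_mulVec, Finset.inter_self, T.2, hST,
      smul_mulVec, one_mulVec]
    norm_num
  have e : M = M * (1 - vecMulVec (ind ℤ S.1) (Pi.single a 1) -
      vecMulVec (ind ℤ T.1) (Pi.single b 1)) := by
    rw [Matrix.mul_sub, Matrix.mul_sub, Matrix.mul_one, mul_one_sub_of_mulVec _ _ _ hkS,
      mul_one_sub_of_mulVec _ _ _ hkT, sub_zero, sub_zero]
  have h := dec_mul M (1 - vecMulVec (ind ℤ S.1) (Pi.single a 1) -
      vecMulVec (ind ℤ T.1) (Pi.single b 1)) {a, b} (by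
    intro l hl j
    rw [Finset.mem_insert, Finset.mem_singleton] at hl
    rcases hl with rfl | rfl
    · simp [vecMulVec_apply, ind, haS, haT, Matrix.one_apply, Pi.single_apply, eq_comm]
    · simp [vecMulVec_apply, ind, hbS, hbT, Matrix.one_apply, Pi.single_apply, eq_comm])
  rw [← e, Finset.card_compl, hη, Finset.card_pair hab] at h
  exact h

theorem decA_eps {g : ℕ} (hη : Fintype.card η = g + 2) :
    Dec False (g + 2) ((6 : ℤ) • (1 : Matrix η η ℤ)) := by
  have h := dec_mul ((6 : ℤ) • (1 : Matrix η η ℤ)) 1 ∅ (by simp)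
  rw [Matrix.mul_one, Finset.compl_empty, Finset.card_univ, hη] at h
  exact h

/-- the base data of the bit network -/
def dataA {g : ℕ} (hη : Fintype.card η = g + 2) : NetData (ZMod 2) ℤ (Tri η) η η g False where
  nb S T := decide ((S.1 ∩ T.1).card = 1)
  eps := (6 : ℤ) • 1
  p := pA
  G i T := ind (ZMod 2) T.1 i
  Rm S i := ind (ZMod 2) S.1 i
  J _ _ := 1
  nb_symm S T := by rw [Finset.inter_comm]
  scalar S T := by
    have h := ind_dot_ind (k := ZMod 2) S.1 T.1
    unfold dotProduct at h
    rw [h]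
    have h3 := tri_inter_le S T
    have h4 := tri_inter_eq_three (S := S) (T := T)
    simp only [decide_eq_true_eq, ← h4]
    generalize (S.1 ∩ T.1).card = n at h3 ⊢
    interval_cases n <;> simp <;> decide
  dec_eps := decA_eps hη
  dec_p S := ⟨[(ind ℤ S.1, covA S.1)], rfl, fun h => h.elim, by simp [pA]⟩
  dec_one := decA_one hη
  dec_two S T h := decA_two hη S T (by simpa using h)
  two_eq h := h.elim

theorem dataA_eps {g : ℕ} (hη : Fintype.card η = g + 2) :
    (dataA hη).eps = (6 : ℤ) • (1 : Matrix η η ℤ) := rfl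

end A

end Crest.Agent.X326.Net
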