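import Crest.Agent.X326.Net.BaseA

/-!
Row 326, part M1: the base data of the butterfly network (scalars in any commutative ring with a
half, labels over `ZMod 2`, symmetric atoms).
-/

set_option autoImplicit false
set_option linter.unusedSectionVars false

namespace Crest.Agent.X326.Net

open Matrix

section B

variable {η : Type} [Fintype η] [DecidableEq η]

/-- removing some rows of an orthogonal matrix from the identity -/
theorem dec_orth {k : Type} [CommRing k] (O : Matrix η η k) (hO : Oᵀ * O = 1) (Z : Finset η) :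
    Dec True Zᶜ.card (1 - ∑ x ∈ Z, vecMulVec (O x) (O x)) := by
  have h := dec_finset_sum (k := k) (sym := True) Zᶜ (fun x => O x) (fun x => O x)
    (fun _ _ _ => rfl)
  have e : (1 : Matrix η η k) = ∑ x, vecMulVec (O x) (O x) := by
    rw [← hO]
    ext i j
    rw [Matrix.mul_apply, Matrix.sum_apply]
    exact Finset.sum_congr rfl fun x _ => by rw [vecMulVec_apply, transpose_apply]
  rw [e, ← Finset.sum_add_sum_compl Z, add_sub_cancel_left]
  exact h

/-- the orthogonal matrix attached to two disjoint sets of even size -/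
def orthB (U U' : Finset η) : Matrix η η (ZMod 2) :=
  1 + vecMulVec (ind (ZMod 2) U) (ind (ZMod 2) U) + vecMulVec (ind (ZMod 2) U') (ind (ZMod 2) U')

theorem orthB_orth {U U' : Finset η} (hU : Even U.card) (hU' : Even U'.card)
    (hd : Disjoint U U') : (orthB U U')ᵀ * orthB U U' = 1 := by
  have h1 : ind (ZMod 2) U ⬝ᵥ ind (ZMod 2) U = 0 := by
    rw [ind_dot_ind, Finset.inter_self]
    exact (ZMod.natCast_eq_zero_iff_even).2 hU
  have h2 : ind (ZMod 2) U' ⬝ᵥ ind (ZMod 2) U' = 0 := by
    rw [ind_dot_ind, Finset.inter_self]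
    exact (ZMod.natCast_eq_zero_iff_even).2 hU'
  have h3 : ind (ZMod 2) U ⬝ᵥ ind (ZMod 2) U' = 0 := by
    rw [ind_dot_ind, Finset.disjoint_iff_inter_eq_empty.1 hd]
    simp
  have h4 : ind (ZMod 2) U' ⬝ᵥ ind (ZMod 2) U = 0 := by rw [dotProduct_comm, h3]
  have ht : (orthB U U')ᵀ = orthB U U' := by
    simp [orthB, transpose_add, transpose_vecMulVec]
  rw [ht]
  unfold orthB
  generalize ind (ZMod 2) U = u at *
  generalize ind (ZMod 2) U' = u' at *
  have two : ∀ A : Matrix η η (ZMod 2), A + A = 0 := fun A => by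
    ext i j
    exact CharTwo.add_self_eq_zero _
  simp only [Matrix.add_mul, Matrix.mul_add, Matrix.one_mul, Matrix.mul_one,
    vecMulVec_mul_vecMulVec, h1, h2, h3, h4, zero_smul, vecMulVec_zero, add_zero]
  have e1 := two (vecMulVec u u)
  have e2 := two (vecMulVec u' u')
  calc _ = 1 + (vecMulVec u u + vecMulVec u u) + (vecMulVec u' u' + vecMulVec u' u') := by abel
    _ = 1 := by rw [e1, e2, add_zero, add_zero]

theorem orthB_row_left {U U' : Finset η} (hd : Disjoint U U') {x : η} (hx : x ∈ U) :
    orthB U U' x = ind (ZMod 2) (U.erase x) := by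
  have hx' : x ∉ U' := Finset.disjoint_left.1 hd hx
  ext i
  by_cases hi : x = i
  · subst hi
    simp [orthB, vecMulVec_apply, ind, hx, hx']
    decide
  · have hi' : i ≠ x := fun h => hi h.symm
    simp [orthB, vecMulVec_apply, ind, hx, hx', hi, hi']

theorem orthB_comm (U U' : Finset η) : orthB U U' = orthB U' U := by
  unfold orthB
  abel

theorem orthB_row_right {U U' : Finset η} (hd : Disjoint U U') {x : η} (hx : x ∈ U') :
    orthB U U' x = ind (ZMod 2) (U'.erase x) := by
  rw [orthB_comm, orthB_row_left hd.symm hx]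

/-- the label of a triple -/
def pB (S : Tri η) : Matrix η η (ZMod 2) := vecMulVec (ind (ZMod 2) S.1) (ind (ZMod 2) S.1)

theorem exists_notMem_of_card_lt (s : Finset η) (h : s.card < Fintype.card η) : ∃ x, x ∉ s := by
  by_contra hc
  push Not at hc
  rw [Finset.eq_univ_iff_forall.2 hc, Finset.card_univ] at h
  exact lt_irrefl _ h

theorem decB_eps {g : ℕ} (hη : Fintype.card η = g + 2) :
    Dec True (g + 2) (1 : Matrix η η (ZMod 2)) := by
  have h := dec_orth (1 : Matrix η η (ZMod 2)) (by simp) ∅
  rw [Finset.compl_empty, Finset.card_univ, hη, Finset.sum_empty, sub_zero] at h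
  exact h

theorem decB_one {g : ℕ} (hη : Fintype.card η = g + 2) (hg : 6 ≤ g) (S : Tri η) :
    Dec True (g + 1) (1 - pB S) := by
  obtain ⟨d, hd⟩ := exists_notMem_of_card_lt S.1 (by rw [S.2]; omega)
  have hc : (insert d S.1).card = 4 := by rw [Finset.card_insert_of_notMem hd, S.2]
  have h := dec_orth (orthB (insert d S.1) ∅)
    (orthB_orth (by rw [hc]; decide) (by simp) (by simp)) {d}
  rw [Finset.card_compl, hη, Finset.card_singleton, Finset.sum_singleton,
    orthB_row_left (by simp) (Finset.mem_insert_self _ _), Finset.erase_insert hd] at h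
  exact h

theorem decB_two {g : ℕ} (hη : Fintype.card η = g + 2) (hg : 6 ≤ g) (S T : Tri η)
    (hST : (S.1 ∩ T.1).card = 0 ∨ (S.1 ∩ T.1).card = 2) :
    Dec True g (1 - pB S - pB T) := by
  have hu := Finset.card_union_add_card_inter S.1 T.1
  rw [S.2, T.2] at hu
  rcases hST with h0 | h2
  · -- disjoint triples
    obtain ⟨d, hd⟩ := exists_notMem_of_card_lt (S.1 ∪ T.1) (by omega)
    obtain ⟨d', hd'⟩ := exists_notMem_of_card_lt (insert d (S.1 ∪ T.1)) (by
      rw [Finset.card_insert_of_notMem hd]; omega)
    simp only [Finset.mem_union, Finset.mem_insert, not_or] at hd hd'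
    have hdd : d ≠ d' := fun h => hd'.1 h.symm
    have hc : (insert d S.1).card = 4 := by rw [Finset.card_insert_of_notMem hd.1, S.2]
    have hc' : (insert d' T.1).card = 4 := by rw [Finset.card_insert_of_notMem hd'.2.2, T.2]
    have hST' : Disjoint S.1 T.1 :=
      Finset.disjoint_iff_inter_eq_empty.2 (Finset.card_eq_zero.1 h0)
    have hdis : Disjoint (insert d S.1) (insert d' T.1) := by
      rw [Finset.disjoint_insert_left, Finset.disjoint_insert_right]
      refine ⟨?_, hd'.2.1, hST'⟩
      simp [hdd, hd.2]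
    have h := dec_orth (orthB (insert d S.1) (insert d' T.1))
      (orthB_orth (by rw [hc]; decide) (by rw [hc']; decide) hdis) {d, d'}
    rw [Finset.card_compl, hη, Finset.card_pair hdd, Finset.sum_pair hdd,
      orthB_row_left hdis (Finset.mem_insert_self _ _), Finset.erase_insert hd.1,
      orthB_row_right hdis (Finset.mem_insert_self _ _), Finset.erase_insert hd'.2.2,
      ← sub_sub] at h
    exact h
  · -- triples sharing two points
    have hc : (S.1 ∪ T.1).card = 4 := by omega
    obtain ⟨a, haS, haT⟩ : ∃ a ∈ S.1, a ∉ T.1 := by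
      by_contra hc
      push Not at hc
      rw [Finset.inter_eq_left.2 hc, S.2] at h2
      omega
    obtain ⟨b, hbT, hbS⟩ : ∃ b ∈ T.1, b ∉ S.1 := by
      by_contra hc
      push Not at hc
      rw [Finset.inter_eq_right.2 hc, T.2] at h2
      omega
    have hab : b ≠ a := fun h => haT (h ▸ hbT)
    have eS : (S.1 ∪ T.1).erase b = S.1 := by
      symm
      refine Finset.eq_of_subset_of_card_le (fun x hx => ?_) ?_
      · exact Finset.mem_erase.2 ⟨fun h => hbS (h ▸ hx), Finset.mem_union_left _ hx⟩
      · rw [Finset.card_erase_of_mem (Finset.mem_union_right _ hbT), hc, S.2]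
    have eT : (S.1 ∪ T.1).erase a = T.1 := by
      symm
      refine Finset.eq_of_subset_of_card_le (fun x hx => ?_) ?_
      · exact Finset.mem_erase.2 ⟨fun h => haT (h ▸ hx), Finset.mem_union_right _ hx⟩
      · rw [Finset.card_erase_of_mem (Finset.mem_union_left _ haS), hc, T.2]
    have h := dec_orth (orthB (S.1 ∪ T.1) ∅)
      (orthB_orth (by rw [hc]; decide) (by simp) (by simp)) {b, a}
    rw [Finset.card_compl, hη, Finset.card_pair hab, Finset.sum_pair hab,
      orthB_row_left (by simp) (Finset.mem_union_right _ hbT), eS,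
      orthB_row_left (by simp) (Finset.mem_union_left _ haS), eT, ← sub_sub] at h
    exact h

/-- the base data of the butterfly network; `hf` is a half of `1` in the scalar ring -/
def dataB {R : Type} [CommRing R] (hf : R) (h2 : 2 * hf = 1) {g : ℕ}
    (hη : Fintype.card η = g + 2) (hg : 6 ≤ g) :
    NetData R (ZMod 2) (Tri η) (Option η) η g True where
  nb S T := decide ((S.1 ∩ T.1).card = 0 ∨ (S.1 ∩ T.1).card = 2)
  eps := 1
  p := pB
  G i T := i.elim 1 (ind R T.1)
  Rm S i := i.elim (-hf) fun i => hf * ind R S.1 i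
  J S T := if (S.1 ∩ T.1).card = 0 then hf else -hf
  nb_symm S T := by rw [Finset.inter_comm]
  scalar S T := by
    have h := ind_dot_ind (k := R) S.1 T.1
    unfold dotProduct at h
    rw [Fintype.sum_option]
    simp only [Option.elim_none, Option.elim_some, mul_assoc]
    rw [← Finset.mul_sum, h]
    have h3 := tri_inter_le S T
    have h4 := tri_inter_eq_three (S := S) (T := T)
    simp only [decide_eq_true_eq, ← h4]
    generalize (S.1 ∩ T.1).card = n at h3 ⊢
    interval_cases n
    · simp
    · simp
    · simp only [Nat.cast_ofNat]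
      norm_num
      ring
    · simp only [Nat.cast_ofNat]
      norm_num
      linear_combination h2
  dec_eps := decB_eps hη
  dec_p S := ⟨[(ind (ZMod 2) S.1, ind (ZMod 2) S.1)], rfl, by simp, by simp [pB]⟩
  dec_one := decB_one hη hg
  dec_two S T h := decB_two hη hg S T (by simpa using h)
  two_eq _ := by decide

theorem dataB_eps {R : Type} [CommRing R] (hf : R) (h2 : 2 * hf = 1) {g : ℕ}
    (hη : Fintype.card η = g + 2) (hg : 6 ≤ g) :
    (dataB hf h2 hη hg).eps = (1 : Matrix η η (ZMod 2)) := rfl

end B

end Crest.Agent.X326.Net
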