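import Crest.Agent.X326.Net.Run

/-!
Row 326, M1: one invocation of the motif (8 rows with dirty scratch wires), forward (`y += x`)
and reverse (`x -= y`), with its labels and its number of atoms.
-/

set_option autoImplicit false

namespace Crest.Agent.X326.Net

open Matrix

variable {R k T C η ι : Type} [CommRing R] [CommRing k] [Fintype C] [DecidableEq T]
  {g : ℕ} {sym : Prop}

/-- side wires: ordered neighbour pairs (X-triple, Y-triple) -/
abbrev Nbr (D : NetData R k T C η g sym) : Type := {q : T × T // D.nb q.1 q.2 = true}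

/-- wires of one invocation: X bank, Y bank, side wires, central wires -/
abbrev W0 (D : NetData R k T C η g sym) : Type := T ⊕ T ⊕ (Nbr D ⊕ C)

variable (D : NetData R k T C η g sym)

/-- a function on the wires of one invocation, from its four parts -/
def st {α : Type} (a b : T → α) (c : Nbr D → α) (d : C → α) : W0 D → α :=
  Sum.elim a (Sum.elim b (Sum.elim c d))

/-- X wire -/
abbrev wX (t : T) : W0 D := Sum.inl t
/-- Y wire -/
abbrev wY (t : T) : W0 D := Sum.inr (Sum.inl t)
/-- side wire -/
abbrev wA (q : Nbr D) : W0 D := Sum.inr (Sum.inr (Sum.inl q))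
/-- central wire -/
abbrev wC (i : C) : W0 D := Sum.inr (Sum.inr (Sum.inr i))

section
variable {α : Type} (a b : T → α) (c : Nbr D → α) (d : C → α)
@[simp] theorem st_X (t : T) : st D a b c d (wX D t) = a t := rfl
@[simp] theorem st_Y (t : T) : st D a b c d (wY D t) = b t := rfl
@[simp] theorem st_A (q : Nbr D) : st D a b c d (wA D q) = c q := rfl
@[simp] theorem st_C (i : C) : st D a b c d (wC D i) = d i := rfl
end

variable [Fintype T] [DecidableEq C]

theorem relab {fx fy fx' fy' : T → Matrix ι ι k} {fa fa' : Nbr D → Matrix ι ι k}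
    {fc fc' : C → Matrix ι ι k} (a b c d : ℕ)
    (hx : ∀ t, Dec sym a (fx' t - fx t)) (hy : ∀ t, Dec sym b (fy' t - fy t))
    (ha : ∀ q, Dec sym c (fa' q - fa q)) (hc : ∀ i, Dec sym d (fc' i - fc i)) :
    Run (R := R) sym (st D fx fy fa fc) (st D fx' fy' fa' fc')
      (Fintype.card T * a + Fintype.card T * b + Fintype.card (Nbr D) * c + Fintype.card C * d)
      (fun x => x) := by
  refine (Run.relabel (st D (fun _ => a) (fun _ => b) (fun _ => c) (fun _ => d)) ?_).congr ?_
    fun _ => rfl
  · rintro (t | t | q | i)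
    · exact hx t
    · exact hy t
    · exact ha q
    · exact hc i
  · simp only [Fintype.sum_sum_type, st, Sum.elim_inl, Sum.elim_inr, Finset.sum_const,
      Finset.card_univ, smul_eq_mul]
    ring

/-- `y_S += s Σ J S T A_(T,S)` -/
def opYA (s : R) (x : W0 D → R) : W0 D → R :=
  st D (fun t => x (wX D t))
    (fun S => x (wY D S) + ∑ q : Nbr D, (if q.1.2 = S then s * D.J S q.1.1 else 0) * x (wA D q))
    (fun q => x (wA D q)) (fun i => x (wC D i))

/-- `x_S += s Σ J S T A_(S,T)` -/
def opXA (s : R) (x : W0 D → R) : W0 D → R :=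
  st D
    (fun S => x (wX D S) + ∑ q : Nbr D, (if q.1.1 = S then s * D.J S q.1.2 else 0) * x (wA D q))
    (fun t => x (wY D t)) (fun q => x (wA D q)) (fun i => x (wC D i))

/-- `y_S += s Σ R S i C_i` -/
def opYC (s : R) (x : W0 D → R) : W0 D → R :=
  st D (fun t => x (wX D t)) (fun S => x (wY D S) + ∑ i, (s * D.Rm S i) * x (wC D i))
    (fun q => x (wA D q)) (fun i => x (wC D i))

/-- `x_S += s Σ R S i C_i` -/
def opXC (s : R) (x : W0 D → R) : W0 D → R :=
  st D (fun S => x (wX D S) + ∑ i, (s * D.Rm S i) * x (wC D i)) (fun t => x (wY D t))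
    (fun q => x (wA D q)) (fun i => x (wC D i))

/-- `A_(S,T) += s x_S` -/
def opAX (s : R) (x : W0 D → R) : W0 D → R :=
  st D (fun t => x (wX D t)) (fun t => x (wY D t))
    (fun q => x (wA D q) + s * x (wX D q.1.1)) (fun i => x (wC D i))

/-- `A_(S,T) += s y_T` -/
def opAY (s : R) (x : W0 D → R) : W0 D → R :=
  st D (fun t => x (wX D t)) (fun t => x (wY D t))
    (fun q => x (wA D q) + s * x (wY D q.1.2)) (fun i => x (wC D i))

/-- `C_i += s Σ G i T x_T` -/
def opCX (s : R) (x : W0 D → R) : W0 D → R :=
  st D (fun t => x (wX D t)) (fun t => x (wY D t)) (fun q => x (wA D q))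
    (fun i => x (wC D i) + ∑ t, (s * D.G i t) * x (wX D t))

/-- `C_i += s Σ G i T y_T` -/
def opCY (s : R) (x : W0 D → R) : W0 D → R :=
  st D (fun t => x (wX D t)) (fun t => x (wY D t)) (fun q => x (wA D q))
    (fun i => x (wC D i) + ∑ t, (s * D.G i t) * x (wY D t))

section Layers

variable {fx fy : T → Matrix ι ι k} {fa : Nbr D → Matrix ι ι k} {fc : C → Matrix ι ι k}

theorem run_YA (s : R) (h : ∀ q : Nbr D, fy q.1.2 = fa q) :
    Run sym (st D fx fy fa fc) (st D fx fy fa fc) 0 (opYA D s) := by
  refine Run.layer (wY D) (wA D) (fun a b h => by simpa using h) (fun a b => by simp)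
    (fun S q => if q.1.2 = S then s * D.J S q.1.1 else 0) ?_ (fun x S => rfl) ?_
  · intro S q hq
    by_cases hS : q.1.2 = S
    · subst hS; exact h q
    · simp [hS] at hq
  · rintro x (t | t | q | i) hw
    · rfl
    · exact absurd rfl (hw t)
    · rfl
    · rfl

theorem run_XA (s : R) (h : ∀ q : Nbr D, fx q.1.1 = fa q) :
    Run sym (st D fx fy fa fc) (st D fx fy fa fc) 0 (opXA D s) := by
  refine Run.layer (wX D) (wA D) (fun a b h => by simpa using h) (fun a b => by simp)
    (fun S q => if q.1.1 = S then s * D.J S q.1.2 else 0) ?_ (fun x S => rfl) ?_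
  · intro S q hq
    by_cases hS : q.1.1 = S
    · subst hS; exact h q
    · simp [hS] at hq
  · rintro x (t | t | q | i) hw
    · exact absurd rfl (hw t)
    · rfl
    · rfl
    · rfl

theorem run_YC (s : R) (h : ∀ t i, fy t = fc i) :
    Run sym (st D fx fy fa fc) (st D fx fy fa fc) 0 (opYC D s) := by
  refine Run.layer (wY D) (wC D) (fun a b h => by simpa using h) (fun a b => by simp)
    (fun S i => s * D.Rm S i) (fun S i _ => h S i) (fun x S => rfl) ?_
  rintro x (t | t | q | i) hw
  · rfl
  · exact absurd rfl (hw t)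
  · rfl
  · rfl

theorem run_XC (s : R) (h : ∀ t i, fx t = fc i) :
    Run sym (st D fx fy fa fc) (st D fx fy fa fc) 0 (opXC D s) := by
  refine Run.layer (wX D) (wC D) (fun a b h => by simpa using h) (fun a b => by simp)
    (fun S i => s * D.Rm S i) (fun S i _ => h S i) (fun x S => rfl) ?_
  rintro x (t | t | q | i) hw
  · exact absurd rfl (hw t)
  · rfl
  · rfl
  · rfl

theorem run_AX (s : R) (h : ∀ q : Nbr D, fa q = fx q.1.1) :
    Run sym (st D fx fy fa fc) (st D fx fy fa fc) 0 (opAX D s) := by
  refine Run.layer (wA D) (wX D) (fun a b h => by simpa using h) (fun a b => by simp)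
    (fun q t => if q.1.1 = t then s else 0) ?_ (fun x q => ?_) ?_
  · intro q t hq
    by_cases hS : q.1.1 = t
    · subst hS; exact h q
    · simp [hS] at hq
  · simp [opAX]
  · rintro x (t | t | q | i) hw
    · rfl
    · rfl
    · exact absurd rfl (hw q)
    · rfl

theorem run_AY (s : R) (h : ∀ q : Nbr D, fa q = fy q.1.2) :
    Run sym (st D fx fy fa fc) (st D fx fy fa fc) 0 (opAY D s) := by
  refine Run.layer (wA D) (wY D) (fun a b h => by simpa using h) (fun a b => by simp)
    (fun q t => if q.1.2 = t then s else 0) ?_ (fun x q => ?_) ?_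
  · intro q t hq
    by_cases hS : q.1.2 = t
    · subst hS; exact h q
    · simp [hS] at hq
  · simp [opAY]
  · rintro x (t | t | q | i) hw
    · rfl
    · rfl
    · exact absurd rfl (hw q)
    · rfl

theorem run_CX (s : R) (h : ∀ i t, fc i = fx t) :
    Run sym (st D fx fy fa fc) (st D fx fy fa fc) 0 (opCX D s) := by
  refine Run.layer (wC D) (wX D) (fun a b h => by simpa using h) (fun a b => by simp)
    (fun i t => s * D.G i t) (fun i t _ => h i t) (fun x S => rfl) ?_
  rintro x (t | t | q | i) hw
  · rfl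
  · rfl
  · rfl
  · exact absurd rfl (hw i)

theorem run_CY (s : R) (h : ∀ i t, fc i = fy t) :
    Run sym (st D fx fy fa fc) (st D fx fy fa fc) 0 (opCY D s) := by
  refine Run.layer (wC D) (wY D) (fun a b h => by simpa using h) (fun a b => by simp)
    (fun i t => s * D.G i t) (fun i t _ => h i t) (fun x S => rfl) ?_
  rintro x (t | t | q | i) hw
  · rfl
  · rfl
  · rfl
  · exact absurd rfl (hw i)

end Layers

omit [DecidableEq C] in
theorem sum_nbr (f : T × T → R) :
    ∑ q : Nbr D, f q.1 = ∑ a, ∑ b, if D.nb a b = true then f (a, b) else 0 := by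
  rw [← Fintype.sum_prod_type (f := fun q : T × T => if D.nb q.1 q.2 = true then f q else 0),
    ← Finset.sum_filter]
  exact (Finset.sum_subtype _ (by simp) f).symm

omit [DecidableEq C] in
theorem key_aux (S : T) (x : T → R) :
    ∑ t, (if D.nb S t = true then D.J S t else 0) * x t +
      ∑ i, D.Rm S i * ∑ t, D.G i t * x t = x S := by
  simp only [Finset.mul_sum, ← mul_assoc]
  rw [Finset.sum_comm, ← Finset.sum_add_distrib]
  simp only [← Finset.sum_mul, ← add_mul, D.scalar]
  simp

omit [DecidableEq C] in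
theorem key_fwd (S : T) (x : T → R) :
    ∑ q : Nbr D, (if q.1.2 = S then D.J S q.1.1 else 0) * x q.1.1 +
      ∑ i, D.Rm S i * ∑ t, D.G i t * x t = x S := by
  rw [← key_aux D S x, sum_nbr D (fun q => (if q.2 = S then D.J S q.1 else 0) * x q.1)]
  congr 1
  refine Finset.sum_congr rfl fun a _ => ?_
  rw [Finset.sum_eq_single S]
  · rw [D.nb_symm]; simp
  · intro b _ hb; simp [hb]
  · simp

omit [DecidableEq C] in
theorem key_rev (S : T) (x : T → R) :
    ∑ q : Nbr D, (if q.1.1 = S then D.J S q.1.2 else 0) * x q.1.2 +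
      ∑ i, D.Rm S i * ∑ t, D.G i t * x t = x S := by
  rw [← key_aux D S x, sum_nbr D (fun q => (if q.1 = S then D.J S q.2 else 0) * x q.2)]
  congr 1
  rw [Finset.sum_eq_single S]
  · simp
  · intro b _ hb; simp [hb]
  · simp

omit [DecidableEq C] in
/-- the eight forward rows give `y += x` -/
theorem fwd_eq (x : W0 D → R) :
    opAX D (-1) (opCX D (-1) (opYA D 1 (opYC D 1 (opCX D 1 (opAX D 1 (opYC D (-1)
      (opYA D (-1) x))))))) =
    st D (fun t => x (wX D t)) (fun t => x (wY D t) + x (wX D t)) (fun q => x (wA D q))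
      (fun i => x (wC D i)) := by
  funext w
  rcases w with t | t | q | i
  · rfl
  · have h := key_fwd D t (fun t => x (wX D t))
    simp only [opAX, opCX, opYA, opYC, st_X, st_Y, st_A, st_C, one_mul, neg_mul, mul_add,
      Finset.sum_add_distrib, Finset.sum_neg_distrib]
    have e : ∀ q : Nbr D, (if q.1.2 = t then -D.J t q.1.1 else 0) * x (wA D q) =
        -((if q.1.2 = t then D.J t q.1.1 else 0) * x (wA D q)) := by
      intro q; split_ifs <;> simp
    simp only [e, Finset.sum_neg_distrib]
    linear_combination h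
  · simp [opAX, opCX, opYA, opYC]
  · simp [opAX, opCX, opYA, opYC]

omit [DecidableEq C] in
/-- the eight reverse rows give `x -= y` -/
theorem rev_eq (x : W0 D → R) :
    opXA D 1 (opXC D 1 (opAY D (-1) (opCY D (-1) (opXC D (-1) (opXA D (-1) (opCY D 1
      (opAY D 1 x))))))) =
    st D (fun t => x (wX D t) - x (wY D t)) (fun t => x (wY D t)) (fun q => x (wA D q))
      (fun i => x (wC D i)) := by
  funext w
  rcases w with t | t | q | i
  · have h := key_rev D t (fun t => x (wY D t))
    simp only [opAY, opCY, opXA, opXC, st_X, st_Y, st_A, st_C, one_mul, neg_mul, mul_add,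
      Finset.sum_add_distrib, Finset.sum_neg_distrib, mul_neg]
    have e : ∀ (q : Nbr D) (z : R), (if q.1.1 = t then -D.J t q.1.2 else 0) * z =
        -((if q.1.1 = t then D.J t q.1.2 else 0) * z) := by
      intro q z; split_ifs <;> simp
    simp only [e, Finset.sum_neg_distrib]
    linear_combination -h
  · rfl
  · simp [opAY, opCY, opXA, opXC]
  · simp [opAY, opCY, opXA, opXC]

end Crest.Agent.X326.Net
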