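import Crest.Agent.X326.Net.Frame

/-!
Row 326, M1: the relation `Run` (existence of a valid program with given labels, number of atoms
and logical effect) and its composition rules.
-/

set_option autoImplicit false

namespace Crest.Agent.X326.Net

open Matrix

variable {W R k ι : Type} [CommRing R] [CommRing k] [DecidableEq W]

/-- there is a valid program from `l` to `l'` with `n` atoms and logical effect `F` -/
def Run (sym : Prop) (l l' : W → Matrix ι ι k) (n : ℕ) (F : (W → R) → W → R) : Prop :=
  ∃ P : List (Instr W R k ι), Valid l P l' ∧ natoms P = n ∧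
    (sym → ∀ w e u v, Instr.atom w e u v ∈ P → u = v) ∧ ∀ x : W → R, logi P x = F x

variable {sym : Prop}

theorem Run.refl (l : W → Matrix ι ι k) : Run (R := R) sym l l 0 (fun x => x) :=
  ⟨[], rfl, rfl, by simp, fun _ => rfl⟩

theorem Run.congr {l l' : W → Matrix ι ι k} {n n' : ℕ} {F F' : (W → R) → W → R}
    (h : Run sym l l' n F) (hn : n = n') (hF : ∀ x, F x = F' x) : Run sym l l' n' F' := by
  obtain ⟨P, h1, h2, h3, h4⟩ := h
  exact ⟨P, h1, h2.trans hn, h3, fun x => (h4 x).trans (hF x)⟩

theorem Run.trans {l l' l'' : W → Matrix ι ι k} {n n' : ℕ} {F F' : (W → R) → W → R}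
    (h : Run sym l l' n F) (h' : Run sym l' l'' n' F') :
    Run sym l l'' (n + n') (fun x => F' (F x)) := by
  obtain ⟨P, h1, h2, h3, h4⟩ := h
  obtain ⟨P', h1', h2', h3', h4'⟩ := h'
  refine ⟨P ++ P', h1.append h1', by rw [natoms_append, h2, h2'], ?_, ?_⟩
  · intro hs w e u v hm
    rcases List.mem_append.1 hm with hm | hm
    · exact h3 hs w e u v hm
    · exact h3' hs w e u v hm
  · intro x
    rw [logi_append, h4, h4']

theorem Run.add {l : W → Matrix ι ι k} {w w' : W} (h : l w = l w') (c : R) :
    Run sym l l 0 (fun x => Function.update x w (x w + c * x w')) :=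
  ⟨[Instr.add w w' c], ⟨h, rfl⟩, rfl, by simp, fun _ => rfl⟩

theorem Run.dec (l : W → Matrix ι ι k) (w : W) {r : ℕ} {A : Matrix ι ι k} (hA : Dec sym r A) :
    Run (R := R) sym l (Function.update l w (l w + A)) r (fun x => x) := by
  obtain ⟨L, rfl, h, rfl⟩ := hA
  induction L generalizing l with
  | nil => simpa using Run.refl l
  | cons q L ih =>
    have h1 : Run (R := R) sym l (Function.update l w (l w + vecMulVec q.1 q.2)) 1
        (fun x => x) := by
      refine ⟨[Instr.atom w (l w) q.1 q.2], ⟨rfl, rfl⟩, by simp, ?_, fun x => ?_⟩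
      · intro hs w' e u v hm
        simp only [List.mem_singleton] at hm
        cases hm
        exact h hs q List.mem_cons_self
      · rw [logi_cons_atom]; rfl
    have h2 := ih (Function.update l w (l w + vecMulVec q.1 q.2))
      fun hs q hq => h hs q (List.mem_cons_of_mem _ hq)
    have h3 := h1.trans h2
    simp only [Function.update_self, Function.update_idem] at h3
    simp only [List.map_cons, List.sum_cons, List.length_cons, ← add_assoc]
    exact h3.congr (by ring) fun _ => rfl

/-- renaming of wires -/
def Instr.rename {W₀ : Type} (f : W₀ → W) : Instr W₀ R k ι → Instr W R k ι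
  | .add w w' c => .add (f w) (f w') c
  | .atom w e u v => .atom (f w) e u v

section Embed

variable {W₀ : Type} [DecidableEq W₀]

omit [CommRing R] in
theorem valid_rename {f : W₀ → W} (hf : Function.Injective f) {P : List (Instr W₀ R k ι)}
    {l₀ l₀' : W₀ → Matrix ι ι k} (h : Valid l₀ P l₀') (l l' : W → Matrix ι ι k)
    (h1 : ∀ a, l (f a) = l₀ a) (h2 : ∀ a, l' (f a) = l₀' a)
    (h3 : ∀ w, (∀ a, f a ≠ w) → l' w = l w) : Valid l (P.map (Instr.rename f)) l' := by
  induction P generalizing l l₀ with
  | nil =>
    simp only [Valid] at h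
    subst h
    simp only [List.map_nil, Valid]
    funext w
    by_cases hw : ∃ a, f a = w
    · obtain ⟨a, rfl⟩ := hw
      rw [h1, h2]
    · push Not at hw
      exact (h3 w hw).symm
  | cons i P ih =>
    cases i with
    | add w w' c =>
      simp only [Valid] at h
      simp only [List.map_cons, Instr.rename, Valid]
      exact ⟨by rw [h1, h1, h.1], ih h.2 l h1 h3⟩
    | atom w e u v =>
      simp only [Valid] at h
      simp only [List.map_cons, Instr.rename, Valid]
      refine ⟨by rw [h1, h.1], ih h.2 _ ?_ ?_⟩
      · intro a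
        by_cases ha : a = w
        · subst ha; simp
        · rw [Function.update_of_ne ha, Function.update_of_ne (fun h => ha (hf h)), h1]
      · intro z hz
        rw [Function.update_of_ne (hz w).symm, h3 z hz]

omit [CommRing k] in
theorem logi_rename {f : W₀ → W} (hf : Function.Injective f) (P : List (Instr W₀ R k ι))
    {M : Type} [AddCommGroup M] [Module R M] (x : W → M) :
    (∀ a, logi (P.map (Instr.rename f)) x (f a) = logi P (fun a => x (f a)) a) ∧
      ∀ w, (∀ a, f a ≠ w) → logi (P.map (Instr.rename f)) x w = x w := by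
  induction P generalizing x with
  | nil => exact ⟨fun _ => rfl, fun _ _ => rfl⟩
  | cons i P ih =>
    cases i with
    | atom w e u v =>
      simp only [List.map_cons, Instr.rename, logi_cons_atom]
      exact ih x
    | add w w' c =>
      simp only [List.map_cons, Instr.rename, logi_cons_add]
      obtain ⟨h1, h2⟩ := ih (Function.update x (f w) (x (f w) + c • x (f w')))
      refine ⟨fun a => ?_, fun z hz => ?_⟩
      · rw [h1]
        congr 1
        funext b
        by_cases hb : b = w
        · subst hb; simp
        · rw [Function.update_of_ne hb, Function.update_of_ne (fun h => hb (hf h))]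
      · rw [h2 z hz, Function.update_of_ne (hz w).symm]

omit [CommRing R] [CommRing k] [DecidableEq W] [DecidableEq W₀] in
theorem natoms_rename (f : W₀ → W) (P : List (Instr W₀ R k ι)) :
    natoms (P.map (Instr.rename f)) = natoms P := by
  induction P with
  | nil => rfl
  | cons i P ih => cases i <;> simp [Instr.rename, ih]

omit [CommRing R] [CommRing k] [DecidableEq W] [DecidableEq W₀] in
theorem mem_rename {f : W₀ → W} {P : List (Instr W₀ R k ι)} {w : W} {e : Matrix ι ι k}
    {u v : ι → k} (h : Instr.atom w e u v ∈ P.map (Instr.rename f)) :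
    ∃ a, Instr.atom a e u v ∈ P := by
  obtain ⟨i, hi, hi'⟩ := List.mem_map.1 h
  cases i with
  | add a b c => cases hi'
  | atom a e' u' v' =>
    simp only [Instr.rename, Instr.atom.injEq] at hi'
    obtain ⟨-, rfl, rfl, rfl⟩ := hi'
    exact ⟨a, hi⟩

/-- a run on a sub-family of wires -/
theorem Run.embed {f : W₀ → W} (hf : Function.Injective f) {l₀ l₀' : W₀ → Matrix ι ι k} {n : ℕ}
    {F₀ : (W₀ → R) → W₀ → R} (h : Run sym l₀ l₀' n F₀) {l l' : W → Matrix ι ι k}
    {F : (W → R) → W → R}
    (h1 : ∀ a, l (f a) = l₀ a) (h2 : ∀ a, l' (f a) = l₀' a)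
    (h3 : ∀ w, (∀ a, f a ≠ w) → l' w = l w)
    (h4 : ∀ x a, F x (f a) = F₀ (fun a => x (f a)) a)
    (h5 : ∀ x w, (∀ a, f a ≠ w) → F x w = x w) : Run sym l l' n F := by
  obtain ⟨P, hv, hn, hs, hl⟩ := h
  refine ⟨P.map (Instr.rename f), valid_rename hf hv l l' h1 h2 h3, by rw [natoms_rename, hn],
    ?_, fun x => ?_⟩
  · intro hsym w e u v hm
    obtain ⟨a, ha⟩ := mem_rename hm
    exact hs hsym a e u v ha
  · obtain ⟨g1, g2⟩ := logi_rename hf P x
    funext w
    by_cases hw : ∃ a, f a = w
    · obtain ⟨a, rfl⟩ := hw
      rw [g1, h4, hl]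
    · push Not at hw
      rw [g2 w hw, h5 x w hw]

/-- independent runs on disjoint sub-families of wires -/
theorem Run.par {I : Type} [Fintype I] {f : I → W₀ → W}
    (hf : ∀ i a j b, f i a = f j b → i = j ∧ a = b)
    {l₀ l₀' : I → W₀ → Matrix ι ι k} {n : I → ℕ} {F₀ : I → (W₀ → R) → W₀ → R}
    (h : ∀ i, Run sym (l₀ i) (l₀' i) (n i) (F₀ i)) {l l' : W → Matrix ι ι k}
    {F : (W → R) → W → R}
    (h1 : ∀ i a, l (f i a) = l₀ i a) (h2 : ∀ i a, l' (f i a) = l₀' i a)
    (h3 : ∀ w, (∀ i a, f i a ≠ w) → l' w = l w)
    (h4 : ∀ x i a, F x (f i a) = F₀ i (fun a => x (f i a)) a)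
    (h5 : ∀ x w, (∀ i a, f i a ≠ w) → F x w = x w) : Run sym l l' (∑ i, n i) F := by
  classical
  have key : ∀ s : Finset I, Run sym l
      (fun w => if ∃ i ∈ s, ∃ a, f i a = w then l' w else l w) (∑ i ∈ s, n i)
      (fun x w => if ∃ i ∈ s, ∃ a, f i a = w then F x w else x w) := by
    intro s
    induction s using Finset.induction_on with
    | empty => simpa using Run.refl l
    | insert j s hj ih =>
      have hnot : ∀ a, ¬ ∃ i ∈ s, ∃ b, f i b = f j a := by
        rintro a ⟨i, hi, b, hb⟩
        exact hj ((hf _ _ _ _ hb).1 ▸ hi)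
      have hyes : ∀ a, ∃ i ∈ insert j s, ∃ b, f i b = f j a :=
        fun a => ⟨j, Finset.mem_insert_self _ _, a, rfl⟩
      have hiff : ∀ w, (∀ a, f j a ≠ w) →
          ((∃ i ∈ insert j s, ∃ b, f i b = w) ↔ ∃ i ∈ s, ∃ b, f i b = w) := by
        intro w hw
        constructor
        · rintro ⟨i, hi, b, hb⟩
          rcases Finset.mem_insert.1 hi with rfl | hi
          · exact absurd hb (hw b)
          · exact ⟨i, hi, b, hb⟩
        · rintro ⟨i, hi, b, hb⟩
          exact ⟨i, Finset.mem_insert_of_mem hi, b, hb⟩
      have step : Run sym (fun w => if ∃ i ∈ s, ∃ a, f i a = w then l' w else l w)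
          (fun w => if ∃ i ∈ insert j s, ∃ a, f i a = w then l' w else l w) (n j)
          (fun x w => if h : ∃ a, f j a = w then F₀ j (fun a => x (f j a)) h.choose else x w) := by
        refine (h j).embed (f := f j) (fun a b hab => (hf _ _ _ _ hab).2) ?_ ?_ ?_ ?_ ?_
        · intro a
          simp only [if_neg (hnot a), h1]
        · intro a
          simp only [if_pos (hyes a), h2]
        · intro w hw
          simp only [hiff w hw]
        · intro x a
          have hex : ∃ b, f j b = f j a := ⟨a, rfl⟩
          rw [dif_pos hex, (hf _ _ _ _ hex.choose_spec).2]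
        · intro x w hw
          rw [dif_neg (by push Not; exact hw)]
      refine (ih.trans step).congr (by rw [Finset.sum_insert hj]; ring) ?_
      intro x
      funext w
      by_cases hw : ∃ a, f j a = w
      · rw [dif_pos hw]
        obtain ⟨a, rfl⟩ := hw
        rw [if_pos (hyes a), h4]
        have hex : ∃ b, f j b = f j a := ⟨a, rfl⟩
        rw [(hf _ _ _ _ hex.choose_spec).2]
        congr 1
        funext b
        exact if_neg (hnot b)
      · rw [dif_neg hw]
        push Not at hw
        simp only [hiff w hw]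
  have h6 := key Finset.univ
  have e1 : (fun w => if ∃ i ∈ (Finset.univ : Finset I), ∃ a, f i a = w then l' w else l w)
      = l' := by
    funext w
    split_ifs with hw
    · rfl
    · push Not at hw
      exact (h3 w fun i a => hw i (Finset.mem_univ _) a).symm
  rw [e1] at h6
  refine h6.congr rfl fun x => ?_
  funext w
  split_ifs with hw
  · rfl
  · push Not at hw
    exact (h5 x w fun i a => hw i (Finset.mem_univ _) a).symm

end Embed

/-- all wires change their labels -/
theorem Run.relabel [Fintype W] {l l' : W → Matrix ι ι k} (c : W → ℕ)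
    (h : ∀ w, Dec sym (c w) (l' w - l w)) : Run (R := R) sym l l' (∑ w, c w) (fun x => x) := by
  refine Run.par (W₀ := Unit) (f := fun w _ => w) (l₀ := fun w _ => l w) (l₀' := fun w _ => l' w)
    (F₀ := fun _ x => x) (fun i _ j _ hij => ⟨hij, rfl⟩) (fun w => ?_) (fun _ _ => rfl)
    (fun _ _ => rfl) (fun w hw => absurd rfl (hw w ())) (fun _ _ _ => rfl) (fun _ _ _ => rfl)
  have := Run.dec (R := R) (fun _ : Unit => l w) () (h w)
  have e : Function.update (fun _ : Unit => l w) () (l w + (l' w - l w)) = fun _ => l' w := by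
    funext a; simp
  rwa [e] at this

/-- one layer of additions: targets `tw a` receive combinations of sources `sw b` -/
theorem Run.layer {α β : Type} [Fintype α] [Fintype β] {l : W → Matrix ι ι k} (tw : α → W)
    (sw : β → W) (htw : Function.Injective tw) (hd : ∀ a b, tw a ≠ sw b) (N : α → β → R)
    (hl : ∀ a b, N a b ≠ 0 → l (tw a) = l (sw b)) {F : (W → R) → W → R}
    (h1 : ∀ x a, F x (tw a) = x (tw a) + ∑ b, N a b * x (sw b))
    (h2 : ∀ x w, (∀ a, tw a ≠ w) → F x w = x w) : Run sym l l 0 F := by
  classical
  have key : ∀ s : Finset (α × β), Run sym l l 0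
      (fun x w => x w + ∑ q ∈ s, if tw q.1 = w then N q.1 q.2 * x (sw q.2) else 0) := by
    intro s
    induction s using Finset.induction_on with
    | empty => simpa using Run.refl l
    | insert q s hq ih =>
      by_cases hN : N q.1 q.2 = 0
      · refine ih.congr rfl fun x => ?_
        funext w
        rw [Finset.sum_insert hq]
        simp [hN]
      · refine (ih.trans (Run.add (hl _ _ hN) (N q.1 q.2))).congr rfl fun x => ?_
        funext w
        rw [Finset.sum_insert hq]
        have h0 : (∑ q' ∈ s, if tw q'.1 = sw q.2 then N q'.1 q'.2 * x (sw q'.2) else 0) = 0 :=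
          Finset.sum_eq_zero fun q' _ => if_neg (hd _ _)
        by_cases hw : w = tw q.1
        · subst hw
          simp only [Function.update_self, h0, if_true]
          ring
        · rw [Function.update_of_ne hw, if_neg (Ne.symm hw), zero_add]
  refine (key Finset.univ).congr rfl fun x => ?_
  funext w
  by_cases hw : ∃ a, tw a = w
  · obtain ⟨a, rfl⟩ := hw
    rw [h1, Fintype.sum_prod_type]
    congr 1
    rw [Finset.sum_eq_single a]
    · simp
    · intro a' _ ha'
      exact Finset.sum_eq_zero fun b _ => if_neg fun h => ha' (htw h)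
    · simp
  · push Not at hw
    rw [h2 x w hw, Finset.sum_eq_zero fun q _ => if_neg (hw q.1), add_zero]

end Crest.Agent.X326.Net
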