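import Crest.Agent.X326.Net.Invoc

/-!
Row 326, M1: the label schedule of one invocation and the two invocation lemmas.
`βB U` stands for `B ⊗ U ⊗ Q`, `βP U` for `P ⊗ U ⊗ Q`.
-/

set_option autoImplicit false

namespace Crest.Agent.X326.Net

open Matrix

variable {R k T C η ι : Type} [CommRing R] [CommRing k] [Fintype C] [DecidableEq T]
  {g : ℕ} {sym : Prop} (D : NetData R k T C η g sym) [Fintype T] [DecidableEq C]
  (βB βP : Matrix η η k →+ Matrix ι ι k) (full : Matrix ι ι k)

/-- labels on entry -/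
def labIn : W0 D → Matrix ι ι k :=
  st D (fun t => βB (D.p t) + βP (D.p t)) (fun t => βB (D.p t)) (fun _ => 0) (fun _ => 0)

/-- labels on exit -/
def labOut : W0 D → Matrix ι ι k :=
  st D (fun _ => βB D.eps + βP D.eps) (fun t => βB D.eps + βP (D.eps - D.p t))
    (fun _ => full) (fun _ => full)

/-- number of atoms of one invocation -/
def invCost (nB nF : ℕ) : ℕ :=
  2 * Fintype.card T * ((nB + 1) * (g + 1)) +
    (Fintype.card (Nbr D) + Fintype.card C) * ((nB + 1) * (g + 2) + nF) +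
      Fintype.card C * (2 * (g + 2))

/-- the schedule of labels, for arbitrary gate rows `F0 … F7` -/
theorem schedule {nB nF : ℕ}
    (hB : ∀ r U, Dec sym r U → Dec sym (nB * r) (βB U))
    (hP : ∀ r U, Dec sym r U → Dec sym r (βP U))
    (hF : Dec sym nF (full - (βB D.eps + βP D.eps)))
    {F0 F1 F2 F3 F4 F5 F6 F7 : (W0 D → R) → W0 D → R}
    (h0 : ∀ (fx fy : T → Matrix ι ι k) (fa : Nbr D → Matrix ι ι k) (fc : C → Matrix ι ι k),
      (∀ q : Nbr D, fy q.1.2 = fa q) → Run sym (st D fx fy fa fc) (st D fx fy fa fc) 0 F0)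
    (h1 : ∀ (fx fy : T → Matrix ι ι k) (fa : Nbr D → Matrix ι ι k) (fc : C → Matrix ι ι k),
      (∀ t i, fy t = fc i) → Run sym (st D fx fy fa fc) (st D fx fy fa fc) 0 F1)
    (h2 : ∀ (fx fy : T → Matrix ι ι k) (fa : Nbr D → Matrix ι ι k) (fc : C → Matrix ι ι k),
      (∀ q : Nbr D, fx q.1.1 = fa q) → Run sym (st D fx fy fa fc) (st D fx fy fa fc) 0 F2)
    (h3 : ∀ (fx fy : T → Matrix ι ι k) (fa : Nbr D → Matrix ι ι k) (fc : C → Matrix ι ι k),
      (∀ t i, fx t = fc i) → Run sym (st D fx fy fa fc) (st D fx fy fa fc) 0 F3)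
    (h4 : ∀ (fx fy : T → Matrix ι ι k) (fa : Nbr D → Matrix ι ι k) (fc : C → Matrix ι ι k),
      (∀ t i, fy t = fc i) → Run sym (st D fx fy fa fc) (st D fx fy fa fc) 0 F4)
    (h5 : ∀ (fx fy : T → Matrix ι ι k) (fa : Nbr D → Matrix ι ι k) (fc : C → Matrix ι ι k),
      (∀ q : Nbr D, fy q.1.2 = fa q) → Run sym (st D fx fy fa fc) (st D fx fy fa fc) 0 F5)
    (h6 : ∀ (fx fy : T → Matrix ι ι k) (fa : Nbr D → Matrix ι ι k) (fc : C → Matrix ι ι k),
      (∀ t i, fx t = fc i) → Run sym (st D fx fy fa fc) (st D fx fy fa fc) 0 F6)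
    (h7 : ∀ (fx fy : T → Matrix ι ι k) (fa : Nbr D → Matrix ι ι k) (fc : C → Matrix ι ι k),
      (∀ q : Nbr D, fx q.1.1 = fa q) → Run sym (st D fx fy fa fc) (st D fx fy fa fc) 0 F7) :
    Run sym (labIn D βB βP) (labOut D βB βP full) (invCost D nB nF)
      (fun x => F7 (F6 (F5 (F4 (F3 (F2 (F1 (F0 x)))))))) := by
  have z : ∀ A : Matrix ι ι k, Dec sym 0 (A - A) := fun A => Dec.of_eq rfl
  -- labels
  set xI : T → Matrix ι ι k := fun t => βB (D.p t) + βP (D.p t) with hxI
  set yI : T → Matrix ι ι k := fun t => βB (D.p t) with hyI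
  set D0 : Matrix ι ι k := βB D.eps with hD0
  set D1 : Matrix ι ι k := βB D.eps + βP D.eps with hD1
  set xM : T → Matrix ι ι k := fun t => βB D.eps + βP (D.p t) with hxM
  set yO : T → Matrix ι ι k := fun t => βB D.eps + βP (D.eps - D.p t) with hyO
  have r0 := relab D (R := R) (fx := xI) (fy := yI) (fx' := xI) (fy' := yI)
    (fa := fun _ => 0) (fa' := fun q => yI q.1.2) (fc := fun _ => 0) (fc' := fun _ => 0)
    0 0 nB 0 (fun _ => z _) (fun _ => z _)
    (fun q => (hB _ _ (D.dec_p q.1.2)).congr (by ring) (by simp [hyI])) (fun _ => z _)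
  have g0 := h0 xI yI (fun q => yI q.1.2) (fun _ => 0) (fun _ => rfl)
  have r1 := relab D (R := R) (fx := xI) (fy := yI) (fx' := xI) (fy' := fun _ => D0)
    (fa := fun q => yI q.1.2) (fa' := fun q => yI q.1.2) (fc := fun _ => 0) (fc' := fun _ => D0)
    0 (nB * (g + 1)) 0 (nB * (g + 2)) (fun _ => z _)
    (fun t => (hB _ _ (D.dec_one t)).congr rfl (by simp [hyI, hD0])) (fun _ => z _)
    (fun _ => (hB _ _ D.dec_eps).congr rfl (by simp [hD0]))
  have g1 := h1 xI (fun _ => D0) (fun q => yI q.1.2) (fun _ => D0) (fun _ _ => rfl)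
  have r2 := relab D (R := R) (fx := xI) (fy := fun _ => D0) (fx' := xM) (fy' := fun _ => D0)
    (fa := fun q => yI q.1.2) (fa' := fun q => xM q.1.1) (fc := fun _ => D0) (fc' := fun _ => D0)
    (nB * (g + 1)) 0 (nB * (g + 1) + 1) 0
    (fun t => (hB _ _ (D.dec_one t)).congr rfl (by simp [hxI, hxM])) (fun _ => z _)
    (fun q => ((hB _ _ (D.dec_one q.1.2)).add (hP _ _ (D.dec_p q.1.1))).congr rfl
      (by simp only [hyI, hxM, map_sub]; abel))
    (fun _ => z _)
  have g2 := h2 xM (fun _ => D0) (fun q => xM q.1.1) (fun _ => D0) (fun _ => rfl)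
  have r3 := relab D (R := R) (fx := xM) (fy := fun _ => D0) (fx' := fun _ => D1)
    (fy' := fun _ => D0)
    (fa := fun q => xM q.1.1) (fa' := fun q => xM q.1.1) (fc := fun _ => D0) (fc' := fun _ => D1)
    (g + 1) 0 0 (g + 2)
    (fun t => (hP _ _ (D.dec_one t)).congr rfl (by simp [hD1, hxM])) (fun _ => z _)
    (fun _ => z _) (fun _ => (hP _ _ D.dec_eps).congr rfl (by simp [hD1, hD0]))
  have g3 := h3 (fun _ => D1) (fun _ => D0) (fun q => xM q.1.1) (fun _ => D1) (fun _ _ => rfl)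
  have r4 := relab D (R := R) (fx := fun _ => D1) (fy := fun _ => D0) (fx' := fun _ => D1)
    (fy' := fun _ => D0)
    (fa := fun q => xM q.1.1) (fa' := fun q => xM q.1.1) (fc := fun _ => D1) (fc' := fun _ => D0)
    0 0 0 (g + 2) (fun _ => z _) (fun _ => z _) (fun _ => z _)
    (fun _ => ((hP _ _ D.dec_eps).neg D.two_eq).congr rfl (by simp [hD1, hD0]))
  have g4 := h4 (fun _ => D1) (fun _ => D0) (fun q => xM q.1.1) (fun _ => D0) (fun _ _ => rfl)
  have r5 := relab D (R := R) (fx := fun _ => D1) (fy := fun _ => D0) (fx' := fun _ => D1)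
    (fy' := yO)
    (fa := fun q => xM q.1.1) (fa' := fun q => yO q.1.2) (fc := fun _ => D0) (fc' := fun _ => D0)
    0 (g + 1) g 0 (fun _ => z _)
    (fun t => (hP _ _ (D.dec_one t)).congr rfl (by simp [hyO, hD0]))
    (fun q => (hP _ _ (D.dec_two q.1.1 q.1.2 q.2)).congr rfl
      (by simp only [hyO, hxM, map_sub]; abel))
    (fun _ => z _)
  have g5 := h5 (fun _ => D1) yO (fun q => yO q.1.2) (fun _ => D0) (fun _ => rfl)
  have r6 := relab D (R := R) (fx := fun _ => D1) (fy := yO) (fx' := fun _ => D1) (fy' := yO)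
    (fa := fun q => yO q.1.2) (fa' := fun q => yO q.1.2) (fc := fun _ => D0) (fc' := fun _ => D1)
    0 0 0 (g + 2) (fun _ => z _) (fun _ => z _) (fun _ => z _)
    (fun _ => (hP _ _ D.dec_eps).congr rfl (by simp [hD1, hD0]))
  have g6 := h6 (fun _ => D1) yO (fun q => yO q.1.2) (fun _ => D1) (fun _ _ => rfl)
  have r7 := relab D (R := R) (fx := fun _ => D1) (fy := yO) (fx' := fun _ => D1) (fy' := yO)
    (fa := fun q => yO q.1.2) (fa' := fun _ => D1) (fc := fun _ => D1) (fc' := fun _ => D1)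
    0 0 1 0 (fun _ => z _) (fun _ => z _)
    (fun q => (hP _ _ (D.dec_p q.1.2)).congr rfl (by simp only [hyO, hD1, map_sub]; abel))
    (fun _ => z _)
  have g7 := h7 (fun _ => D1) yO (fun _ => D1) (fun _ => D1) (fun _ => rfl)
  have r8 := relab D (R := R) (fx := fun _ => D1) (fy := yO) (fx' := fun _ => D1) (fy' := yO)
    (fa := fun _ => D1) (fa' := fun _ => full) (fc := fun _ => D1) (fc' := fun _ => full)
    0 0 nF nF (fun _ => z _) (fun _ => z _) (fun _ => hF) (fun _ => hF)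
  have all := (((((((((((((((r0.trans g0).trans r1).trans g1).trans r2).trans g2).trans r3).trans
    g3).trans r4).trans g4).trans r5).trans g5).trans r6).trans g6).trans r7).trans g7).trans r8
  exact all.congr (by unfold invCost; ring) fun _ => rfl

/-- forward invocation: `y += x` -/
theorem invoc_fwd {nB nF : ℕ}
    (hB : ∀ r U, Dec sym r U → Dec sym (nB * r) (βB U))
    (hP : ∀ r U, Dec sym r U → Dec sym r (βP U))
    (hF : Dec sym nF (full - (βB D.eps + βP D.eps))) :
    Run sym (labIn D βB βP) (labOut D βB βP full) (invCost D nB nF)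
      (fun x : W0 D → R => st D (fun t => x (wX D t)) (fun t => x (wY D t) + x (wX D t))
        (fun q => x (wA D q)) (fun i => x (wC D i))) :=
  (schedule D βB βP full hB hP hF
    (fun _ _ _ _ h => run_YA D (-1) h) (fun _ _ _ _ h => run_YC D (-1) h)
    (fun _ _ _ _ h => run_AX D 1 fun q => (h q).symm)
    (fun _ _ _ _ h => run_CX D 1 fun i t => (h t i).symm)
    (fun _ _ _ _ h => run_YC D 1 h) (fun _ _ _ _ h => run_YA D 1 h)
    (fun _ _ _ _ h => run_CX D (-1) fun i t => (h t i).symm)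
    (fun _ _ _ _ h => run_AX D (-1) fun q => (h q).symm)).congr rfl (fwd_eq D)

/-- reverse invocation: `x -= y` -/
theorem invoc_rev {nB nF : ℕ}
    (hB : ∀ r U, Dec sym r U → Dec sym (nB * r) (βB U))
    (hP : ∀ r U, Dec sym r U → Dec sym r (βP U))
    (hF : Dec sym nF (full - (βB D.eps + βP D.eps))) :
    Run sym (labIn D βB βP) (labOut D βB βP full) (invCost D nB nF)
      (fun x : W0 D → R => st D (fun t => x (wX D t) - x (wY D t)) (fun t => x (wY D t))
        (fun q => x (wA D q)) (fun i => x (wC D i))) :=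
  (schedule D βB βP full hB hP hF
    (fun _ _ _ _ h => run_AY D 1 fun q => (h q).symm)
    (fun _ _ _ _ h => run_CY D 1 fun i t => (h t i).symm)
    (fun _ _ _ _ h => run_XA D (-1) h) (fun _ _ _ _ h => run_XC D (-1) h)
    (fun _ _ _ _ h => run_CY D (-1) fun i t => (h t i).symm)
    (fun _ _ _ _ h => run_AY D (-1) fun q => (h q).symm)
    (fun _ _ _ _ h => run_XC D 1 h) (fun _ _ _ _ h => run_XA D 1 h)).congr rfl (rev_eq D)

end Crest.Agent.X326.Net
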